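import Vale.Agent.P237.All.Small.Num

/-!
P237, every dimension, small excess: the test of one box of `x = √(p + 3) y`, `e = 1 / (p + 3)`,
written for evaluation by the kernel (`notes/P237h4/cells`).
-/

noncomputable section

namespace Vale.Agent.P237.All.Transport.Small

open Mid (Sg AF U)

/-- A constant affine in `e`. -/
structure Cv where
  v : Sg
  w : Sg

/-- The value of a constant at `e`. -/
def Cv.af (c : Cv) (e : AF) : AF := (AF.const c.v).add (cm c.w e)

/-- The constants of a cell. -/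
structure Par where
  b : ℕ
  kb : ℕ
  ka : Cv
  D : Cv
  e1 : Cv
  r0 : Cv
  r1 : Cv
  r2 : Cv
  r3 : Cv
  r4 : Cv
  r5 : Cv
  p0 : Cv
  p1 : Cv
  p2 : Cv
  p3 : Cv
  n0 : Cv
  n1 : Cv
  n2 : Cv
  n3 : Cv

/-- An affine form given as data. -/
structure Lin where
  c : Sg
  s : Sg
  t : Sg

/-- Data as a form. -/
def Lin.af (l : Lin) : AF := ⟨l.c, l.s, l.t, 0⟩

/-- A bound on the exponent of the ridge at a point of a group, with a multiplier on its series. -/
structure Kn where
  φ : Sg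
  on : Bool
  rc : ℕ
  a : Sg

/-- A piece between two knots. -/
structure Pc where
  mode : ℕ
  flat : Bool
  cap : Bool
  disc : Bool
  c0 : Sg
  sl : Sg
  c1 : ℕ
  cc : ℕ
  w1 : ℕ
  iW : ℕ
  tw : ℕ
  K : Lin
  n : ℕ
  K1 : Lin
  nl : ℕ
  nk : ℕ
  u0 : ℕ
  Ma : Lin
  Mb : Lin

/-- A group of pieces in one variable `φ`. -/
structure Grp where
  Z : Lin
  first : Kn
  rest : List (Pc × Kn)

/-- How a cap on `w` is justified. -/
inductive CapK
  | self
  | shift (xu : Lin) (sy : ℕ)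

/-- How the half mass below `y` is bounded. -/
inductive HbK
  | series
  | tail (i2 : Lin)

/-- How the reach ahead of `y` ends. -/
inductive Fin
  | band (h : HbK) (hb : Lin) (rc : ℕ) (eB : Lin)
  | bandFar (T : Lin) (h : HbK) (hb : Lin) (rc : ℕ) (eB : Lin)
  | tailBand (i2 : Lin)
  | wall

/-- The values at a knot of the bound. -/
structure Kv where
  x : ℕ
  a : Cv
  b : Cv

/-- The data of a box. -/
structure Bx where
  left : Bool
  neg : Grp
  pos : Grp
  fars : List Grp
  fin : Fin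
  ck : CapK
  wc : ℕ
  gm : ℕ
  stop : Lin

/-! ### The values over a box -/

/-- The geometry. -/
structure Geo where
  x : AF
  X : AF
  e : AF
  mu : AF
  imu : AF
  pi : AF
  rat : AF
  eps : AF
  pe : AF
  im : AF
  eX : AF
  S : AF
  iS : AF
  B0 : AF
  h : AF
  ga : AF
  ka : AF
  kb : AF
  ika : AF
  ikb : AF
  xlo : AF
  xhi : AF

/-- The coefficients. -/
structure Cof where
  R : AF
  L : AF
  Cp : AF
  Qp : AF
  Cm : AF
  Qm : AF
  cq : AF
  kpB : AF
  kwB : AF
  kpS : AF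
  kwS : AF

/-- The bounds at the two ends of `k`, times `(1 - y ²) ^ -2`, and their products by `k`. -/
structure Rhs where
  a : AF
  b : AF
  kaa : AF
  kbb : AF
  cross : AF

/-- The geometry, if its guards hold. -/
def geo (P : Par) (x e : AF) (k : Geo → Bool) : Bool :=
  (x.mul x).force fun X => (one.sub (e.scale 2 1)).force fun mu => (one.sub (e.scale 3 1)).force fun pi =>
  ps mu && ps pi && ps e && mu.inv.force fun imu => pi.inv.force fun ipi =>
  (mu.mul ipi).force fun rat => (e.mul imu).force fun eps => (e.mul ipi).force fun pe =>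
  (mu.mul e.inv).force fun im => (e.mul X).force fun eX => (one.sub eX).force fun S =>
  ps S && S.inv.force fun iS => ((X.mul mu).mul iS).force fun B0 =>
  ((one.sub eps).scale 1 2).force fun h =>
  (((one.add eps).sub ((cn P.kb eps).scale 1 2))).force fun g =>
  ps g && g.inv.force fun ga => (P.ka.af e).force fun ka => (cst P.kb).force fun kb =>
  ps ka && ps kb && ka.inv.force fun ika => kb.inv.force fun ikb =>
  (e.scale 1 2).force fun e2 => (one.sub e2).force fun f =>
  (x.mul (f.sub (e.mul e))).force fun xlo => (x.mul f).force fun xhi =>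
  k ⟨x, X, e, mu, imu, pi, rat, eps, pe, im, eX, S, iS, B0, h, ga, ka, kb, ika, ikb, xlo, xhi⟩

/-- The rational bases about the centre. -/
structure Bas where
  Xc : AF
  d : AF
  ic : AF
  wc : AF
  iw : AF
  p : AF
  s : AF
  t : AF
  ic2 : AF
  ic3 : AF

/-- The bases, if their guards hold. -/
def bas (g : Geo) (k : Bas → Bool) : Bool :=
  ((AF.const g.x.c).mul (AF.const g.x.c)).force fun Xc => (g.X.sub Xc).force fun d =>
  (one.add (g.X.scale 1 4)).force fun q4 => (one.add (g.X.scale 1 16)).force fun q16 =>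
  (one.add (Xc.scale 1 4)).force fun c4 => (one.add (Xc.scale 1 16)).force fun c16 =>
  ps q4 && ps q16 && ps c4 && ps c16 && q4.inv.force fun iq => q16.inv.force fun iw =>
  c4.inv.force fun ic => c16.inv.force fun wc =>
  (ic.mul iq).force fun p => (iq.add ic).force fun s => ((s.mul s).sub p).force fun t =>
  (ic.mul ic).force fun ic2 => (ic2.mul ic).force fun ic3 => k ⟨Xc, d, ic, wc, iw, p, s, t, ic2, ic3⟩

/-- The quadratic part on a side about the centre, its derivative and its two coefficients. -/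
def side (g : Geo) (h : Bas) (v0 v1 v2 v3 : Cv) (K2 rc4 : AF) (k : AF → AF → Bool) : Bool :=
  (v1.af g.e).force fun w1 => (v2.af g.e).force fun w2 => (v3.af g.e).force fun w3 =>
  (w2.sub w3).force fun w23 =>
  ((((v0.af g.e).add (h.Xc.mul ((w1.add (h.ic.mul w2)).add (h.ic2.mul w3))))).add
    (h.d.mul (w1.add (h.p.mul (w23.add (w3.mul h.s)))))).force fun v =>
  (((w1.add (h.ic2.mul w23)).add ((h.ic3.mul w3).scale 2 1)).sub
    (h.d.mul ((h.p.mul ((h.s.mul w23).add ((h.t.mul w3).scale 2 1))).scale 1 4))).force fun v' =>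
  ((v.scale 2 1).sub rc4).force fun C =>
  (((K2.add (g.X.mul v')).add (g.X.mul v')).sub (v.add (g.B0.mul v))).force fun Q => k C Q

/-- The coefficients, if their guards hold. -/
def cof (P : Par) (g : Geo) (k : Cof → Bool) : Bool :=
  bas g fun h =>
  (P.r2.af g.e).force fun r2 => (P.r3.af g.e).force fun r3 => (P.r4.af g.e).force fun r4 =>
  ((P.r1.af g.e).add (r2.scale 4 1)).force fun a1 =>
  ((P.r5.af g.e).sub (r2.scale 4 1)).force fun a5 => (a5.sub r4).force fun a54 =>
  (h.wc.mul h.iw).force fun pw =>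
  (((P.r0.af g.e).add (h.Xc.mul (((a1.add (h.ic.mul a5)).add (h.ic2.mul r4)).add (h.wc.mul r3)))).add
    (h.d.mul ((a1.add (h.p.mul (a54.add (r4.mul h.s)))).add (pw.mul r3)))).force fun R =>
  ((((a1.add (h.ic2.mul a54)).add ((h.ic3.mul r4).scale 2 1)).add ((h.wc.mul h.wc).mul r3)).sub
    (h.d.mul (((h.p.mul ((h.s.mul a54).add ((h.t.mul r4).scale 2 1))).scale 1 4).add
      (((pw.mul (h.iw.add h.wc)).mul r3).scale 1 16)))).force fun R' =>
  (P.D.af g.e).force fun D => ((cst 8388608).sub D).force fun G =>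
  (cn P.b D).force fun bD => ((D.add bD).scale 2 1).force fun gc =>
  ((((gc.mul g.mu).add (G.mul (one.add g.e))).add (D.mul (one.sub g.e))).sub
    ((bD.mul g.e).scale 2 1)).force fun l1 =>
  ((((P.e1.af g.e).sub G).add D).add (bD.scale 2 1)).force fun l0 =>
  ((((g.X.mul R').scale 2 1).sub (g.B0.mul R)).add
    (g.X.mul ((g.mu.mul (((G.scale 6 1).sub (bD.scale 4 1)).add (D.scale 2 1))).add
      ((l1.mul g.rat).scale 2 1)))).force fun L0 =>
  (L0.sub ((g.rat.mul g.B0).mul ((((one.sub gc).mul (one.add (g.pi.mul g.X))).add l0).add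
    (l1.mul g.X)))).force fun L =>
  ((((G.sub bD).scale 2 1).sub ((cn P.b gc).sub gc)).add
    ((((G.scale 6 1).sub (bD.scale 2 1)).add (((cn P.b bD).sub bD).scale 2 1)).mul g.eps)).force fun c4 =>
  (g.rat.mul c4).force fun rc => (rc.mul g.eX).force fun rc4 =>
  (((G.add (cn P.b bD)).mul (one.add g.e)).mul g.X).force fun K2 =>
  ((cn P.b gc).mul g.eX).force fun cq => (gc.mul g.S).force fun kpB =>
  ((g.rat.mul ((one.sub gc).add ((l0.add (l1.mul g.X)).mul g.eps))).add kpB).force fun kwB =>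
  (g.eps.mul g.eX).force fun zu => (((cn P.b gc).sub gc).mul zu).force fun kpS =>
  (kpS.add (rc.mul zu)).force fun kwS =>
  nn G && nn D && Nat.ble 16777216 P.b &&
  side g h P.p0 P.p1 P.p2 P.p3 K2 rc4 fun Cp Qp =>
  side g h P.n0 P.n1 P.n2 P.n3 K2 rc4 fun Cm Qm =>
  k ⟨R, L, Cp, Qp, Cm, Qm, cq, kpB, kwB, kpS, kwS⟩

/-- The value of the bound between two knots. -/
def interpol (e : AF) (c0 c1 : Cv) : AF :=
  (((c0.af e).add (c1.af e)).scale 1 2).add
    ((((c1.af e).sub (c0.af e)).scale 1 2).mul ⟨⟨0, 0⟩, ⟨16777216, 0⟩, ⟨0, 0⟩, 0⟩)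

/-- The right-hand sides. -/
def rhs (g : Geo) (u v : Kv) (k : Rhs → Bool) : Bool :=
  (g.iS.mul g.iS).force fun i2 =>
  ((interpol g.e u.a v.a).mul i2).force fun a => ((interpol g.e u.b v.b).mul i2).force fun b =>
  (g.ka.mul a).force fun kaa => (g.kb.mul b).force fun kbb =>
  (((g.ka.mul b).add (g.kb.mul a)).scale 1 2).force fun cr =>
  k ⟨a, b, kaa, kbb, cr⟩

/-! ### The groups -/

/-- What the pieces of a group share. -/
structure GV where
  R : AF
  LZ : AF
  CZ : AF
  QZ : AF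
  qZ : AF
  qZp : AF
  CC : AF
  kp : AF
  kpp : AF
  kpZ : AF
  kpZp : AF
  kw : AF
  kwp : AF
  kwZ : AF
  kwZp : AF
  q1 : AF
  q2 : AF
  u1 : AF
  u2 : AF
  he : AF
  SE : AF

/-- The values of a group with factor `Z`, `υ = kz φ`. -/
def grp (g : Geo) (f : Cof) (C Q0 Z kz SE : AF) (k : GV → Bool) : Bool :=
  (f.L.mul Z).force fun LZ => (C.mul Z).force fun CZ =>
  (Z.mul Z).force fun Z2 => (Q0.mul Z2).force fun QZ => (f.cq.mul Z2).force fun qZ =>
  (qZ.mul g.pe).force fun qZp => (CZ.mul CZ).force fun CC =>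
  (f.kpB.mul g.pe).force fun kpp => (f.kpS.mul kz).force fun kpZ => (kpZ.mul g.pe).force fun kpZp =>
  (f.kwB.mul g.pe).force fun kwp => (f.kwS.mul kz).force fun kwZ => (kwZ.mul g.pe).force fun kwZp =>
  (g.B0.mul kz).force fun Bk => (Bk.scale 2 1).force fun q1 => ((g.eps.mul kz).mul Bk).force fun q2 =>
  (g.eps.mul g.eps).force fun ee => (ee.mul q1).force fun u1 => (ee.mul q2).force fun u2 =>
  ((g.h.mul ee).scale 1 2).force fun he =>
  ps Z && ps kz &&
  k ⟨f.R, LZ, CZ, QZ, qZ, qZp, CC, f.kpB, kpp, kpZ, kpZp, f.kwB, kwp, kwZ, kwZp, q1, q2,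
    u1, u2, he, SE⟩

/-- What an end of `k` adds. -/
structure EV where
  kk : AF
  ik : AF
  kQ : AF
  kq : AF
  kqp : AF
  kCC : AF
  kCZ : AF

/-- The values at an end. -/
def endV (v : GV) (kk ik : AF) (k : EV → Bool) : Bool :=
  (kk.mul v.QZ).force fun c =>
  (kk.mul v.qZ).force fun d => (kk.mul v.qZp).force fun e => (kk.mul v.CC).force fun f =>
  (kk.mul v.CZ).force fun h => k ⟨kk, ik, c, d, e, f, h⟩

/-- `exp (ε Z) ≤ 1 + ε A`, from the Padé bound; `AE` is `A ε Z`. -/
def expTest (eps Z A AE : AF) : Bool :=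
  (eps.mul Z).force fun E =>
  ps ((cst 50331648).sub E) &&
    nn ((A.sub (AE.scale 1 3)).sub (Z.add ((Z.mul E).scale 1 6)))

/-- The series multiplier at the exponent `u`. -/
def recTest (rc : ℕ) (u : AF) : Bool :=
  Nat.ble 16777216 rc && nn ((cn rc (one.sub u)).sub one)

/-- The bound on the ridge at a knot. -/
def knot (g : Geo) (v : GV) (near : Bool) (n : Kn) : Bool :=
  cond n.on
    ((cm n.φ (v.q1.add (cm n.φ v.q2))).force fun q =>
    ((g.h.mul q).add (cn n.rc (v.he.mul (q.mul q)))).force fun P0 =>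
    recTest n.rc (cm n.φ (v.u1.add (cm n.φ v.u2))) &&
    cond near
      (((g.kb.mul (one.sub g.eps)).add P0).force fun Z =>
        (cm n.a g.kb).force fun A => expTest g.eps Z A (A.mul (g.eps.mul Z)))
      ((AF.const n.a).force fun A => expTest g.eps P0 A (cm n.a (g.eps.mul P0))))
    true

/-- A weight at one choice of the coefficient of the excess. -/
def kapOne (iW tw : ℕ) (kp kpp kw kwp K : AF) : Bool :=
  nn ((((kp.add (cn iW kpp)).sub (cn tw kw)).sub (kwp.scale 1 2)).sub K)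

/-- The test of a curvature. -/
def kap (v : GV) (lo hi : Sg) (iW tw : ℕ) (K : AF) : Bool :=
  (v.kp.add (cm lo v.kpZ)).force fun kp => (v.kpp.add (cm lo v.kpZp)).force fun kpp =>
  nn kp && nn ((kp.add (cn iW kpp)).sub K) &&
  kapOne iW tw kp kpp (v.kw.add (cm lo v.kwZ)) (v.kwp.add (cm lo v.kwZp)) K &&
  kapOne iW tw kp kpp (v.kw.add (cm hi v.kwZ)) (v.kwp.add (cm hi v.kwZp)) K

/-- The point of the lower slope at one choice of the coefficient of the excess. -/
def slopeOne (u0 : ℕ) (kp kw kwp : AF) : Bool :=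
  nn (kp.sub (cn u0 (kw.add (kwp.scale 2 1))))

/-- The test of the lower slope. -/
def slope (g : Geo) (v : GV) (lo hi : Sg) (p : Pc) : Bool :=
  ((v.kp.add (cm lo v.kpZ)).add (v.kpp.add (cm lo v.kpZp))).force fun kp =>
  Nat.ble 1 p.u0 && Nat.ble p.u0 16777216 &&
  slopeOne p.u0 kp (v.kw.add (cm lo v.kwZ)) (v.kwp.add (cm lo v.kwZp)) &&
  slopeOne p.u0 kp (v.kw.add (cm hi v.kwZ)) (v.kwp.add (cm hi v.kwZp)) &&
  nn (((cn p.nl (cn p.u0 (cn p.u0 g.eps))).sub (cst p.nk)).add (cn p.u0 (cn p.u0 (cst p.nk))))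

/-- A quadratic is nonpositive between two points. -/
def quadOk (disc : Bool) (a0 a1 a2 : AF) (A E : Sg) : Bool :=
  cond disc (ps a2.neg' && nn (((a2.mul a0).scale 4 1).sub (a1.mul a1)))
    (np (a0.add (cm A (a1.add (cm A a2)))) && np (a0.add (cm E (a1.add (cm E a2)))) &&
      np (((a0.scale 2 1).add (cm A (a1.add ((cm E a2).scale 2 1)))).add (cm E a1)))

/-- The completed square at an end. -/
def stdOk (v : GV) (w : EV) (disc : Bool) (K M : Lin) (c : AF) (sl : Sg) (kQ PR : AF) (A E : Sg) : Bool :=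
  K.af.force fun K => M.af.force fun M => (v.R.sub M).force fun N => nn M &&
  (((K.mul ((M.mul c).sub PR)).scale 4 1).add ((N.mul N).mul w.ik)).force fun b0 =>
  (((K.mul (v.LZ.add (cm sl M))).scale 4 1).add ((N.mul v.CZ).scale 2 1)).force fun b1 =>
  (((K.mul kQ).scale 4 1).add w.kCC).force fun b2 =>
  quadOk disc b0 b1 b2 A E

/-- The upper side without a positive curvature: the two ends in `σ`. -/
def splitOk (v : GV) (w : EV) (n : ℕ) (c0 sl : Sg) (kQ PR : AF) (A E : Sg) : Bool :=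
  quadOk false PR.neg' v.LZ kQ A E &&
  (((cm c0 v.R).add (cn n (cm c0 (cm c0 w.kk)))).sub PR).force fun a0 =>
  (((v.LZ.add (cm sl v.R)).add (cm c0 w.kCZ)).add ((cn n (cm c0 (cm sl w.kk))).scale 2 1)).force fun a1 =>
  ((kQ.add (cm sl w.kCZ)).add (cn n (cm sl (cm sl w.kk)))).force fun a2 =>
  quadOk false a0 a1 a2 A E

/-- The lower side with a slope: the two ends in `σ`. -/
def lowOk (v : GV) (w : EV) (nl : ℕ) (kQ PR : AF) (A E : Sg) : Bool :=
  quadOk false PR.neg' v.LZ kQ A E &&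
  quadOk false ((((cst nl).sub v.R).mul v.SE).sub PR) (v.LZ.sub (v.SE.mul w.kCZ)) kQ A E

/-- A piece at an end. -/
def endOk (v : GV) (w : EV) (p : Pc) (M : Lin) (c : AF) (PR : AF) (A E : Sg) : Bool :=
  (w.kQ.sub (cn p.iW (w.kq.sub (cn p.w1 w.kqp)))).force fun kQu =>
  cond (Nat.beq p.mode 0) (stdOk v w p.disc p.K M c p.sl kQu PR A E)
    (splitOk v w p.n p.c0 p.sl kQu PR A E && (w.kQ.sub w.kq).force fun kQl =>
      cond (Nat.beq p.mode 1) (stdOk v w p.disc p.K1 M (cst 0) ⟨0, 0⟩ kQl PR A E)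
        (lowOk v w p.nl kQl PR A E))

/-- The curvatures of a piece. -/
def modeOk (g : Geo) (v : GV) (p : Pc) (lo hi : Sg) : Bool :=
  cond (Nat.beq p.mode 0)
    (ps p.K.af && kap v lo hi p.iW p.tw (p.K.af.scale (Nat.add 16777216 p.w1) 16777216))
    (Nat.beq p.c1 0 && kap v lo hi p.iW p.tw (cst p.n).neg' &&
      cond (Nat.beq p.mode 1) (ps p.K1.af && kap v lo hi 16777216 8388608 p.K1.af)
        (kap v lo hi 16777216 8388608 (cst p.nk).neg' && slope g v lo hi p))

/-- The constants of a piece that depend on `W` only. -/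
def wOk (p : Pc) : Bool :=
  let W := Nat.add 16777216 p.w1
  let A := Nat.add W 16777216
  Nat.ble (Nat.mul p.iW W) 281474976710656 &&
  Nat.ble (Nat.mul (Nat.mul 50331648 W) (Nat.mul A A))
    (Nat.add (Nat.mul (Nat.mul 3 p.tw) (Nat.mul A (Nat.mul A A)))
      (Nat.mul 562949953421312 (Nat.mul W p.w1)))

/-- The chord above a value at a knot. -/
def lineGe (p : Pc) (φ a : Sg) : Bool :=
  Sg.le (a.smul 16777216) ((p.c0.smul 16777216).add (p.sl.mul φ))

/-- The chord above a value and the shift in `k` at a knot. -/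
def lineGeFar (p : Pc) (kb : ℕ) (φ a : Sg) : Bool :=
  lineGe p φ a &&
    Sg.le ((a.smul 16777216).add (Sg.ofN (Nat.mul kb p.cc)))
      (((p.c0.smul 16777216).add (p.sl.mul φ)).add (Sg.ofN (Nat.mul kb p.c1)))

/-- The chord and the bound on `w`. -/
def chordOk (g : Geo) (v : GV) (near : Bool) (kb gm wc : ℕ) (p : Pc) (u n : Kn) : Bool :=
  cond p.flat
    (p.cap && nn (((AF.const p.c0).add (cm u.φ (AF.const p.sl))).sub (cn wc v.SE)) &&
      nn (((AF.const p.c0).add (cm n.φ (AF.const p.sl))).sub (cn wc v.SE)))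
    (u.on && n.on &&
      cond near
        (lineGe p u.φ u.a && lineGe p n.φ n.a &&
          (p.cap || (nn ((cst p.w1).sub (cm u.a (cn kb g.eps))) &&
            nn ((cst p.w1).sub (cm n.a (cn kb g.eps))))))
        (lineGeFar p kb u.φ u.a && lineGeFar p kb n.φ n.a &&
          nn ((cst p.cc).sub (cn gm (one.add (cm u.a g.eps)))) &&
          nn ((cst p.cc).sub (cn gm (one.add (cm n.a g.eps)))) &&
          (p.cap || (nn ((cst p.w1).sub ((cm u.a g.eps).add (cn p.cc (cn kb g.eps)))) &&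
            nn ((cst p.w1).sub ((cm n.a g.eps).add (cn p.cc (cn kb g.eps)))))))) &&
    (!p.cap || Nat.ble wc p.w1)

/-- A piece in the variable `ψ = Z φ`. -/
def pieceNear (g : Geo) (v : GV) (wa wb : EV) (r : Rhs) (kb gm wc : ℕ) (p : Pc) (u n : Kn) : Bool :=
  let lo := cond (Sg.le ⟨0, 0⟩ u.φ) ⟨0, 0⟩ u.φ
  let hi := cond (Sg.le n.φ ⟨0, 0⟩) ⟨0, 0⟩ n.φ
  wOk p && chordOk g v true kb gm wc p u n && modeOk g v p lo hi &&
  (AF.const p.c0).force fun c =>
  endOk v wa p p.Ma c r.a u.φ n.φ && endOk v wb p p.Mb c r.b u.φ n.φ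

/-- A piece in the variable `υ = Z φ`. -/
def pieceFar (g : Geo) (v : GV) (w : EV) (r : Rhs) (kb gm wc : ℕ) (p : Pc) (u n : Kn) : Bool :=
  wOk p && chordOk g v false kb gm wc p u n && modeOk g v p u.φ n.φ &&
  (AF.const p.c0).force fun c => (cn p.c1 g.ka).force fun ca => (cn p.c1 g.kb).force fun cb =>
  endOk v w p p.Ma (c.add ca) r.kaa u.φ n.φ && endOk v w p p.Ma (c.add cb) r.kbb u.φ n.φ &&
  endOk v w p p.Ma (c.add ((ca.add cb).scale 1 2)) r.cross u.φ n.φ

/-- The pieces of a group, in order. -/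
def runNear (g : Geo) (v : GV) (wa wb : EV) (r : Rhs) (kb gm wc : ℕ) : Kn → List (Pc × Kn) → Bool
  | _, [] => true
  | u, (p, n) :: l => Sg.le u.φ n.φ && knot g v true n && pieceNear g v wa wb r kb gm wc p u n &&
      runNear g v wa wb r kb gm wc n l

/-- The pieces of a group far from `y`, in order. -/
def runFar (g : Geo) (v : GV) (w : EV) (r : Rhs) (kb gm wc : ℕ) : Kn → List (Pc × Kn) → Bool
  | _, [] => true
  | u, (p, n) :: l => Sg.le u.φ n.φ && knot g v false n && pieceFar g v w r kb gm wc p u n &&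
      runFar g v w r kb gm wc n l

/-- The last point of a group. -/
def lastPhi : Sg → List (Pc × Kn) → Sg
  | u, [] => u
  | _, (_, n) :: l => lastPhi n.φ l

/-- A group in `ψ`. -/
def nearOk (P : Par) (g : Geo) (f : Cof) (r : Rhs) (B : Bx) (C Q0 : AF) (G : Grp) : Bool :=
  (G.Z.af).force fun Z => (cn P.kb Z).force fun kz => (g.im.mul g.ika).force fun SE =>
  grp g f C Q0 Z kz SE fun v => endV v g.ka g.ika fun wa => endV v g.kb g.ikb fun wb =>
  knot g v true G.first && runNear g v wa wb r P.kb B.gm B.wc G.first G.rest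

/-- A group in `υ`. -/
def farOk (P : Par) (g : Geo) (f : Cof) (r : Rhs) (B : Bx) (C Q0 Z : AF) (G : Grp) : Bool :=
  grp g f C Q0 Z Z g.im fun v => endV v one one fun w =>
  knot g v false G.first && runFar g v w r P.kb B.gm B.wc G.first G.rest

/-- The groups far ahead: each passes and starts before the reach of the previous one. -/
def farsOk (P : Par) (g : Geo) (f : Cof) (r : Rhs) (B : Bx) : AF → List Grp → (AF → Bool) → Bool
  | cur, [], k => k cur
  | cur, G :: l, k => (G.Z.af).force fun Z =>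
      nn (cur.sub (cm G.first.φ Z)) && farOk P g f r B f.Cp f.Qp Z G &&
        (cm (lastPhi G.first.φ G.rest) Z).force fun nx => farsOk P g f r B nx l k

/-! ### The caps and the bands -/

/-- `mills` from above. -/
def millsUp (x : AF) : AF := x.add ((cst 30198989).mul (x.add (cst 37245419)).inv)

/-- The mass of the power `p`, scaled, from above. -/
def massUp (g : Geo) : AF := (cst 21027221).mul (one.add (g.eps.scale 1 2))

/-- The cap on `w`. -/
def capOk (g : Geo) (kb wc : ℕ) : CapK → Bool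
  | .self => Nat.ble kb 16777216 && ps (g.xhi.add (cst 37245419)) &&
      expUp (((g.X.mul (one.sub g.e)).mul g.iS).scale 1 2) fun ef =>
        nn ((cst wc).sub (g.eps.mul (cn kb ((g.eps.scale 2 1).add
          ((one.add ((cn kb (g.eps.mul g.eps)).scale 2 1)).mul
            ((g.ga.mul (massUp g)).mul ((millsUp g.xhi).mul ef)))))))
  | .shift xu sy =>
      xu.af.force fun xu => (xu.mul xu).force fun Xu => (one.sub g.e).force fun q =>
      ps q && (g.e.mul q.inv).force fun t => (one.sub (Xu.mul t)).force fun den =>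
      (xu.mul ((Xu.mul (one.sub t)).add (cst 50331648))).force fun fd =>
      Nat.ble kb 16777216 && ps xu && ps den && ps fd && nn (g.xlo.sub xu) &&
      ps (g.xhi.add (cst 37245419)) &&
      nn ((cn sy (cn sy (one.sub ((g.xhi.mul g.xhi).mul t)))).sub one) &&
      expUp ((Xu.mul den.inv).scale 1 2) fun ef =>
        nn ((one.add (cst wc)).sub (cn sy (((one.add ((cn kb (g.eps.mul g.eps)).scale 2 1)).mul
          (millsUp g.xhi)).mul (((cn kb (g.ga.mul g.eps)).mul ((massUp g).mul ef)).add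
            ((one.sub ((Xu.mul t).scale 1 2)).mul ((Xu.add (cst 33554432)).mul fd.inv))))))

/-- The shift in `k` of the far chords. -/
def gmOk (g : Geo) (gm : ℕ) : Bool :=
  (g.kb.mul (one.sub g.eps)).force fun Z => (cn gm g.kb).force fun A =>
    expTest g.eps Z A (A.mul (g.eps.mul Z))

/-- `(x + 313 / 100) / (x ^ 2 + 313 / 100 x + 201 / 50)` from below, if defined. -/
def hLow (x : AF) (k : AF → Bool) : Bool :=
  (x.add (cst 52512686)).force fun n => ((x.mul n).add (cst 67444409)).force fun d =>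
    ps d && (n.mul d.inv).force k

/-- `i2` below the reciprocal of `mills2` at `xhi`. -/
def i2Ok (g : Geo) (i2 : AF) : Bool :=
  (g.xhi.mul g.xhi).force fun X =>
  ((X.add ((cst 61516459).mul g.xhi)).add (cst 89254790)).force fun hi =>
  ((X.add ((cst 61516458).mul g.xhi)).add (cst 89254789)).force fun lo =>
  nn i2 && nn (lo.sub (i2.mul (((g.xhi.mul hi).add g.xhi).add (cst 71303168))))

/-- The bound on the half mass. -/
def hbOk (g : Geo) (hb : AF) : HbK → Bool
  | .series => ((((g.pi.mul g.X).mul g.iS)).scale 1 3).force fun a =>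
      ps (one.sub a) && nn ((hb.mul (one.sub a)).sub one)
  | .tail i2 => i2.af.force fun i2 => i2Ok g i2 && nn hb &&
      expUp (((g.pi.mul g.X).mul (one.add ((g.eX.mul g.iS).scale 1 2))).scale 1 2) fun ef =>
        nn ((hb.mul g.xlo).sub (((massUp g).mul ef).sub (g.S.mul i2)))

/-- The band ahead in `ψ`. -/
def bandA (g : Geo) (T : AF) (h : HbK) (hbL : Lin) (rc : ℕ) (eBL : Lin) : Bool :=
  hbL.af.force fun hb => eBL.af.force fun eB => (g.kb.mul T).force fun v =>
  ((v.mul g.B0).mul ((one.scale 2 1).add (v.mul g.eps))).force fun q =>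
  (((g.eps.mul g.eps).mul q)).force fun u =>
  ((g.h.mul q).add (cn rc (((g.h.mul (g.eps.mul g.eps)).scale 1 2).mul (q.mul q)))).force fun P0 =>
  (g.eps.mul P0).force fun E =>
  nn T && hbOk g hb h && recTest rc u && nn (eB.sub one) && ps ((cst 50331648).sub E) &&
    nn ((eB.sub ((eB.mul E).scale 1 3)).sub ((one.add (E.scale 2 3)).add ((E.mul E).scale 1 6))) &&
    ps (T.sub ((g.ga.mul hb).mul eB))

/-- The band ahead in `υ`, from the two tails. -/
def bandB (g : Geo) (T : AF) (i2L : Lin) : Bool :=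
  i2L.af.force fun i2 => (one.add (T.mul g.eps)).force fun f => (g.xlo.mul f).force fun x1 =>
  (one.sub (g.eX.mul (f.mul f))).force fun S1 =>
  ((T.mul g.B0).mul ((one.scale 2 1).add (T.mul g.eps))).force fun q =>
  nn T && ps S1 && i2Ok g i2 && hLow x1 fun h1 => (x1.add (S1.mul h1)).force fun ml =>
  ps ml && expUp (((g.X.mul (one.sub g.e)).mul (one.add ((g.eX.mul g.iS).scale 1 2))).scale 1 2) fun ef =>
  expUp (((((one.sub g.e).mul g.imu).mul g.eps).mul q).scale 1 2).neg' fun e2 =>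
    ps (((i2.sub ((g.ga.mul (g.kb.mul g.eps)).mul (((massUp g).mul ef).sub i2))).mul ml).sub e2)

/-- The band behind in `ψ`. -/
def bandBack (g : Geo) (T : AF) : Bool :=
  nn g.xlo && hLow g.xlo fun h =>
    ((g.X.mul (one.sub g.e)).add (g.S.mul (g.xlo.mul h))).force fun den =>
      ps den && nn ((T.mul den).sub (g.ga.mul g.S))

/-- The side behind `y`. -/
def backOk (P : Par) (g : Geo) (f : Cof) (r : Rhs) (B : Bx) : Bool :=
  Sg.le B.neg.first.φ ⟨0, 16777216⟩ && Sg.le ⟨0, 0⟩ (lastPhi B.neg.first.φ B.neg.rest) &&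
  cond B.left (farOk P g f r B f.Cm f.Qm g.im B.neg)
    (nearOk P g f r B f.Cm f.Qm B.neg && bandBack g B.neg.Z.af)

/-- The side ahead of `y`. -/
def aheadOk (P : Par) (g : Geo) (f : Cof) (r : Rhs) (B : Bx) : Bool :=
  Sg.le B.pos.first.φ ⟨0, 0⟩ && Sg.le ⟨16777216, 0⟩ (lastPhi B.pos.first.φ B.pos.rest) &&
  nearOk P g f r B f.Cp f.Qp B.pos &&
  match B.fin with
  | .band h hb rc eB => bandA g B.pos.Z.af h hb rc eB
  | .bandFar T h hb rc eB => bandA g T.af h hb rc eB &&
      farsOk P g f r B (g.ka.mul B.pos.Z.af) B.fars fun cur => nn (cur.sub (g.kb.mul T.af))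
  | .tailBand i2 => bandB g B.stop.af i2 &&
      farsOk P g f r B (g.ka.mul B.pos.Z.af) B.fars fun cur => nn (cur.sub B.stop.af)
  | .wall => (one.add (B.stop.af.mul g.eps)).force fun w =>
      nn ((g.eX.mul (w.mul w)).sub one) && nn B.stop.af &&
      farsOk P g f r B (g.ka.mul B.pos.Z.af) B.fars fun cur => nn (cur.sub B.stop.af)

/-- The test of a box between two knots, for `e` within `eh` of `ec`. -/
def boxOk (P : Par) (ec eh : ℕ) (u v : Kv) (B : Bx) : Bool :=
  Nat.ble u.x v.x && Nat.beq (Nat.mod (Nat.add u.x v.x) 2) 0 &&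
  geo P ⟨⟨Nat.div (Nat.add u.x v.x) 2, 0⟩, ⟨Nat.div (Nat.sub v.x u.x) 2, 0⟩, ⟨0, 0⟩, 0⟩
    ⟨⟨ec, 0⟩, ⟨0, 0⟩, ⟨eh, 0⟩, 0⟩ fun g =>
  cof P g fun f => rhs g u v fun r =>
  capOk g P.kb B.wc B.ck && gmOk g B.gm && backOk P g f r B && aheadOk P g f r B

end Vale.Agent.P237.All.Transport.Small
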