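import Vale.Agent.P237.All.Mid.Major
import Vale.Agent.P237.All.CertPotentialTwo

/-!
P237, every dimension, small excess: the potential `(majLr / p + R / m ², V± / m)` in
`X = (p + 3) y ²`, `m = p + 1`, with rational bases, and its coefficients in the scaled variables, in
closed form in `X` and `e = 1 / (p + 3)` (`notes/P237h4/cells/fit_chord_m30_100.cpp`).
-/

noncomputable section

open Real Set

namespace Vale.Agent.P237.All.Transport.Small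

/-- `1 / (1 + X / 4)`. -/
def iq (X : ℝ) : ℝ := (1 + X / 4)⁻¹

/-- `1 / (1 + X / 16)`. -/
def iw (X : ℝ) : ℝ := (1 + X / 16)⁻¹

/-- The coefficients of the linear part of the potential. -/
structure RCo where
  r0 : ℝ
  r1 : ℝ
  r2 : ℝ
  r3 : ℝ
  r4 : ℝ
  r5 : ℝ

/-- The coefficients of the quadratic part on one side. -/
structure VCo where
  v0 : ℝ
  v1 : ℝ
  v2 : ℝ
  v3 : ℝ

/-- The constants at one dimension. -/
structure Co where
  b : ℝ
  D : ℝ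
  e1 : ℝ
  R : RCo
  Vp : VCo
  Vm : VCo

def RCo.val (c : RCo) (X : ℝ) : ℝ :=
  c.r0 + c.r1 * X + c.r2 * (X ^ 2 * iq X) + c.r3 * (X * iw X) + c.r4 * (X * iq X ^ 2) +
    c.r5 * (X * iq X)

def RCo.der (c : RCo) (X : ℝ) : ℝ :=
  c.r1 + c.r2 * (X * (2 + X / 4) * iq X ^ 2) + c.r3 * iw X ^ 2 +
    c.r4 * ((1 - X / 4) * iq X ^ 3) + c.r5 * iq X ^ 2

def VCo.val (c : VCo) (X : ℝ) : ℝ :=
  c.v0 + c.v1 * X + c.v2 * (X * iq X) + c.v3 * (X * iq X ^ 2)

def VCo.der (c : VCo) (X : ℝ) : ℝ :=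
  c.v1 + c.v2 * iq X ^ 2 + c.v3 * ((1 - X / 4) * iq X ^ 3)

theorem RCo.hasDerivAt (c : RCo) {X : ℝ} (hX : 0 ≤ X) : HasDerivAt c.val (c.der X) X := by
  have h4 : 1 + X / 4 ≠ 0 := by positivity
  have h16 : 1 + X / 16 ≠ 0 := by positivity
  have d4 := (((hasDerivAt_id X).div_const 4).const_add 1).inv h4
  have d16 := (((hasDerivAt_id X).div_const 16).const_add 1).inv h16
  have h := (((((hasDerivAt_const X c.r0).add ((hasDerivAt_id X).const_mul c.r1)).add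
    ((((hasDerivAt_id X).pow 2).mul d4).const_mul c.r2)).add
    (((hasDerivAt_id X).mul d16).const_mul c.r3)).add
    (((hasDerivAt_id X).mul (d4.pow 2)).const_mul c.r4)).add
    (((hasDerivAt_id X).mul d4).const_mul c.r5)
  refine h.congr_deriv ?_
  simp only [RCo.der, iq, iw, id_eq, Pi.pow_apply, Pi.inv_apply, pow_one, Nat.cast_ofNat,
    show 2 - 1 = 1 from rfl]
  field_simp
  ring

theorem VCo.hasDerivAt (c : VCo) {X : ℝ} (hX : 0 ≤ X) : HasDerivAt c.val (c.der X) X := by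
  have h4 : 1 + X / 4 ≠ 0 := by positivity
  have d4 := (((hasDerivAt_id X).div_const 4).const_add 1).inv h4
  have h := (((hasDerivAt_const X c.v0).add ((hasDerivAt_id X).const_mul c.v1)).add
    (((hasDerivAt_id X).mul d4).const_mul c.v2)).add
    (((hasDerivAt_id X).mul (d4.pow 2)).const_mul c.v3)
  refine h.congr_deriv ?_
  simp only [VCo.der, iq, id_eq, Pi.pow_apply, Pi.inv_apply, pow_one, Nat.cast_ofNat,
    show 2 - 1 = 1 from rfl]
  field_simp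
  ring

variable (c : Co) (p : ℕ)

/-- `1 / (p + 3)`. -/
def eP : ℝ := 1 / ((p : ℝ) + 3)

/-- `(p + 3) y ²`. -/
def xS (y : ℝ) : ℝ := ((p : ℝ) + 3) * y ^ 2

/-- The weight of the variance, times `m`. -/
def Co.G : ℝ := 1 / 2 - c.D

/-- `majC`, times `m`. -/
def Co.gc : ℝ := 2 * (1 + c.b) * c.D

/-- The multiplier. -/
def Co.ell (c2 : ℝ) : ℝ := 1 + c.e1 / ((p : ℝ) + 1) + c.G / ((p : ℝ) + 1) * (c2 - 1)

/-- The value of `majLr`. -/
def Co.lr (c2 y : ℝ) : ℝ :=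
  majLr p (c.G / ((p : ℝ) + 1)) (c.D / ((p : ℝ) + 1)) c.b (c.ell p c2) c2 y

/-- The linear coefficient of the potential. -/
def Co.A (c2 y : ℝ) : ℝ := c.lr p c2 y / p + c.R.val (xS p y) / ((p : ℝ) + 1) ^ 2

/-- The slope of `majLr` in `y ²`. -/
def Co.lr1 : ℝ :=
  (c.G * ((p : ℝ) + 4) + c.D * ((p : ℝ) + 2) - 2 * c.b * c.D) / ((p : ℝ) + 1) + c.gc

/-- Its derivative. -/
def Co.dA (y : ℝ) : ℝ :=
  2 * y * (c.lr1 p / p + c.R.der (xS p y) * ((p : ℝ) + 3) / ((p : ℝ) + 1) ^ 2)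

/-- The quadratic coefficient on a side. -/
def VCo.W (v : VCo) (y : ℝ) : ℝ := v.val (xS p y) / ((p : ℝ) + 1)

/-- Its derivative. -/
def VCo.dW (v : VCo) (y : ℝ) : ℝ := 2 * ((p : ℝ) + 3) * y * v.der (xS p y) / ((p : ℝ) + 1)

theorem hasDerivAt_xS (y : ℝ) : HasDerivAt (xS p) (2 * ((p : ℝ) + 3) * y) y := by
  have h := (hasDerivAt_pow 2 y).const_mul ((p : ℝ) + 3)
  refine h.congr_deriv ?_
  norm_num; ring

theorem xS_nonneg (y : ℝ) : 0 ≤ xS p y := by unfold xS; positivity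

theorem Co.hasDerivAt_A (c2 y : ℝ) : HasDerivAt (c.A p c2) (c.dA p y) y := by
  have hl : HasDerivAt (c.lr p c2) (2 * y * c.lr1 p) y := by
    set a := c.G / ((p : ℝ) + 1)
    set d := c.D / ((p : ℝ) + 1)
    have h2 := hasDerivAt_pow 2 y
    have h := (((((h2.const_mul ((p : ℝ) + 4)).sub_const c2).const_mul a).const_add (c.ell p c2)).add
      ((((h2.const_mul ((p : ℝ) + 2)).const_add 1).add
        ((h2.const_sub 1).const_mul (2 * c.b))).const_mul d)).sub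
      ((h2.const_sub 1).const_mul (majC c.b d * ((p : ℝ) + 1)))
    refine (h.congr_of_eventuallyEq (Filter.Eventually.of_forall fun z => ?_)).congr_deriv ?_
    · simp only [Co.lr, majLr, Pi.add_apply, Pi.sub_apply]; rfl
    · simp only [Co.lr1, majC, Co.gc, a, d]
      field_simp
      ring
  have h := (hl.div_const (p : ℝ)).add
    (((c.R.hasDerivAt (xS_nonneg p y)).comp y (hasDerivAt_xS p y)).div_const (((p : ℝ) + 1) ^ 2))
  refine h.congr_deriv ?_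
  rw [Co.dA]; ring

theorem VCo.hasDerivAt_W (v : VCo) (y : ℝ) : HasDerivAt (v.W p) (v.dW p y) y := by
  have h := ((v.hasDerivAt (xS_nonneg p y)).comp y (hasDerivAt_xS p y)).div_const ((p : ℝ) + 1)
  refine h.congr_deriv ?_
  rw [VCo.dW]; ring

/-! ### The scaled coefficients -/

/-- `m / p`. -/
def rat (e : ℝ) : ℝ := (1 - 2 * e) / (1 - 3 * e)

/-- The coefficient of `ψ`. -/
def Co.Lh (e X : ℝ) : ℝ :=
  2 * X * c.R.der X - (1 - 2 * e) * X * c.R.val X / (1 - e * X) +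
    X * ((1 - 2 * e) * (6 * c.G - 4 * c.b * c.D + 2 * c.D) +
      2 * (c.gc * (1 - 2 * e) + c.G * (1 + e) + c.D * (1 - e) - 2 * c.b * c.D * e) * rat e) -
    (1 - 2 * e) * rat e * X / (1 - e * X) * ((1 - c.gc) * (1 + (1 - 3 * e) * X) +
      (c.e1 - c.G + c.D * (1 + 2 * c.b)) +
      (c.gc * (1 - 2 * e) + c.G * (1 + e) + c.D * (1 - e) - 2 * c.b * c.D * e) * X)

/-- The coefficient of `z = y θ` in the excess. -/
def Co.c4 (e : ℝ) : ℝ :=
  2 * c.G - 2 * c.b * c.D - c.gc * (c.b - 1) +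
    (6 * c.G - 2 * c.b * c.D + 2 * c.b * (c.b - 1) * c.D) * (e / (1 - 2 * e))

/-- The coefficient of `σ ψ`. -/
def Co.Ch (v : VCo) (e X : ℝ) : ℝ := 2 * v.val X - rat e * (e * X) * c.c4 e

/-- The coefficient of `ψ ²`; `qc` is the part kept from the deficit. -/
def Co.Qh (v : VCo) (e X qc : ℝ) : ℝ :=
  (c.G + c.b ^ 2 * c.D) * (1 + e) * X + 2 * X * v.der X - v.val X -
    (1 - 2 * e) * X * v.val X / (1 - e * X) - c.b * c.gc * qc * (e * X)

/-- The weight of the deficit, times `m`. -/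
def Co.Kp (e X z : ℝ) : ℝ := c.gc * (1 - e * X + (c.b - 1) * z)

/-- The weight of the excess, times `m`. -/
def Co.Kw (e X z : ℝ) : ℝ :=
  rat e * (1 - c.gc + ((c.e1 - c.G + c.D * (1 + 2 * c.b)) +
      (c.gc * (1 - 2 * e) + c.G * (1 + e) + c.D * (1 - e) - 2 * c.b * c.D * e) * X) *
        (e / (1 - 2 * e))) + c.Kp e X z + rat e * c.c4 e * z

variable {c p} {c2 y : ℝ} (hp : 1 ≤ p) (hy : y ∈ Ioo (0 : ℝ) 1)

theorem eS_X (p : ℕ) (y : ℝ) : eP p * xS p y = y ^ 2 := by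
  unfold eP xS; field_simp

theorem eP_facts (p : ℕ) :
    1 - 2 * eP p = ((p : ℝ) + 1) / ((p : ℝ) + 3) ∧ 1 - 3 * eP p = (p : ℝ) / ((p : ℝ) + 3) ∧
      (1 : ℝ) + eP p = ((p : ℝ) + 4) / ((p : ℝ) + 3) ∧ 1 - eP p = ((p : ℝ) + 2) / ((p : ℝ) + 3) := by
  refine ⟨?_, ?_, ?_, ?_⟩ <;> (unfold eP; field_simp; ring)

include hp in
theorem rat_eq : rat (eP p) = ((p : ℝ) + 1) / p := by
  have hp0 : (0 : ℝ) < p := Nat.cast_pos.2 (by omega)
  obtain ⟨h1, h2, -, -⟩ := eP_facts p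
  rw [rat, h1, h2]; field_simp

theorem re_eq (c : Co) (p : ℕ) (c2 y : ℝ) :
    majRe p (c.G / ((p : ℝ) + 1)) (c.D / ((p : ℝ) + 1)) c.b (c.ell p c2) c2 (c.A p c2 y) y *
      ((p : ℝ) + 1) ^ 2 = c.R.val (xS p y) := by
  rw [majRe, Co.A, Co.lr]; field_simp; ring

include hp hy in
theorem le_eq : majLe p (c.G / ((p : ℝ) + 1)) (c.D / ((p : ℝ) + 1)) c.b
      (c.dA p y - ((p : ℝ) + 1) * y / (1 - y ^ 2) * c.A p c2 y) y * y * ((p : ℝ) + 1) ^ 2 =
    c.Lh (eP p) (xS p y) := by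
  have hp0 : (0 : ℝ) < p := Nat.cast_pos.2 (by omega)
  have hS : (1 : ℝ) - y ^ 2 ≠ 0 := by nlinarith [hy.1, hy.2]
  obtain ⟨h1, h2, h3, h4⟩ := eP_facts p
  rw [Co.Lh, rat_eq hp, eS_X, h1, h2, h3, h4, majLe, Co.dA, Co.A, Co.lr]
  simp only [majLt, majLr, majC, Co.lr1, Co.ell, Co.gc, Co.G]
  generalize c.R.val (xS p y) = R
  generalize c.R.der (xS p y) = R'
  simp only [xS, eP]
  field_simp
  ring

include hp hy in
theorem cross_eq (v : VCo) : majCross p (c.G / ((p : ℝ) + 1)) (c.D / ((p : ℝ) + 1)) c.b (v.W p y / y) y *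
      y * ((p : ℝ) + 1) = c.Ch v (eP p) (xS p y) := by
  have hp0 : (0 : ℝ) < p := Nat.cast_pos.2 (by omega)
  have hy0 := hy.1.ne'
  obtain ⟨h1, -, -, -⟩ := eP_facts p
  rw [Co.Ch, rat_eq hp, eS_X, Co.c4, h1, majCross, majX, majC, VCo.W]
  simp only [Co.gc, Co.G, eP]
  field_simp
  ring

include hy in
theorem sq_eq (v : VCo) (qc : ℝ) :
    ((c.G / ((p : ℝ) + 1) + c.D / ((p : ℝ) + 1) * c.b ^ 2) * ((p : ℝ) + 4) +
        (v.dW p y / y - v.W p y / y ^ 2 - ((p : ℝ) + 1) * v.W p y / (1 - y ^ 2)) -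
        c.b * majC c.b (c.D / ((p : ℝ) + 1)) * qc) * y ^ 2 * ((p : ℝ) + 1) =
      c.Qh v (eP p) (xS p y) qc := by
  have hS : (1 : ℝ) - y ^ 2 ≠ 0 := by nlinarith [hy.1, hy.2]
  have hy0 := hy.1.ne'
  obtain ⟨h1, -, h3, -⟩ := eP_facts p
  rw [Co.Qh, eS_X, h1, h3, VCo.dW, VCo.W, majC]
  simp only [Co.gc, xS]
  field_simp
  ring

theorem kp_eq (c : Co) (p : ℕ) (y t : ℝ) :
    majKp c.b (c.D / ((p : ℝ) + 1)) y (t - y) * ((p : ℝ) + 1) =
      c.Kp (eP p) (xS p y) (y * (t - y)) := by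
  rw [Co.Kp, eS_X, majKp, majC, Co.gc]; field_simp

include hp in
theorem kw_eq (t : ℝ) :
    majKw p (c.G / ((p : ℝ) + 1)) (c.D / ((p : ℝ) + 1)) c.b (c.ell p c2) c2 y (t - y) * ((p : ℝ) + 1) =
      c.Kw (eP p) (xS p y) (y * (t - y)) := by
  have hp0 : (0 : ℝ) < p := Nat.cast_pos.2 (by omega)
  obtain ⟨h1, -, h3, h4⟩ := eP_facts p
  rw [Co.Kw, Co.Kp, rat_eq hp, Co.c4, eS_X, h1, h3, h4, majKw, majKp, majLr, majX, majC]
  simp only [Co.gc, Co.G, Co.ell, eP, xS]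
  field_simp
  ring

end Vale.Agent.P237.All.Transport.Small
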