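import Vale.Agent.P237.All.TailPoint

/-!
P237, every dimension, small excess: the majorant with a sharper bound on the excess, in the form used
for the pieces: on `1 ≤ w ≤ W` one curvature `κ` and one coefficient of `θ²`, on `w ≤ 1` either a
curvature or a slope in `s` (`notes/P237h4/cells`).
-/

noncomputable section

open Real Set

namespace Vale.Agent.P237.All.Transport.Small

/-- `excess / (s² / w)` at most, for `w ≥ 1`. -/
def twS (p : ℕ) (w : ℝ) : ℝ :=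
  w / (w + 1) - 2 / 3 * (w * (w - 1) / (w + 1) ^ 3) + 1 / (2 * (p : ℝ))

theorem logLo_cubic {w : ℝ} (hw : 1 ≤ w) :
    2 * ((w - 1) / (w + 1)) + 2 / 3 * ((w - 1) / (w + 1)) ^ 3 ≤ log w := by
  set z := (w - 1) / (w + 1) with hz
  have hz0 : 0 ≤ z := div_nonneg (by linarith) (by linarith)
  have hz1 : z < 1 := by rw [hz, div_lt_one (by linarith)]; linarith
  have h := hasSum_log_sub_log_of_abs_lt_one (x := z) (by rwa [abs_of_nonneg hz0])
  have hs := sum_le_hasSum (Finset.range 2) (fun i _ => by positivity) h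
  have e : (1 + z) / (1 - z) = w := by
    rw [hz]; field_simp; ring
  rw [← Real.log_div (by linarith) (by linarith), e] at hs
  simp only [Finset.sum_range_succ, Finset.sum_range_zero] at hs
  norm_num at hs
  linarith

theorem log_sq_le {w : ℝ} (hw : 1 ≤ w) : log w ^ 2 ≤ (w - 1) ^ 2 / w := by
  have hs : 1 ≤ √w := Real.one_le_sqrt.2 hw
  have h := Real.self_le_sinh_iff.2 (Real.log_nonneg hs)
  rw [Real.sinh_log (by linarith), Real.log_sqrt (by linarith)] at h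
  have h2 : log w ≤ √w - (√w)⁻¹ := by linarith
  refine (pow_le_pow_left₀ (Real.log_nonneg hw) h2 2).trans (le_of_eq ?_)
  have hsq := Real.sq_sqrt (show 0 ≤ w by linarith)
  have hs0 : √w ≠ 0 := by linarith
  generalize √w = q at hsq hs0 ⊢
  subst hsq
  field_simp

theorem excess_le_sharp (p : ℕ) (hp : 1 ≤ p) {r : ℝ} (hr : 0 < r) (hr1 : r ≤ 1) :
    (r ^ p)⁻¹ - 1 + (p : ℝ) * (r - 1) ≤ twS p (r ^ p)⁻¹ * (((r ^ p)⁻¹ - 1) ^ 2 / (r ^ p)⁻¹) := by
  have hp0 : (0 : ℝ) < p := Nat.cast_pos.2 (by omega)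
  have hw : 1 ≤ (r ^ p)⁻¹ := (one_le_inv₀ (pow_pos hr p)).2 (pow_le_one₀ hr.le hr1)
  have hl : log (r ^ p)⁻¹ = -((p : ℝ) * log r) := by rw [Real.log_inv, Real.log_pow]
  have hr' : r ≤ 1 - -log r + (-log r) ^ 2 / 2 := by
    have h0 : 0 ≤ -log r := neg_nonneg.2 (Real.log_nonpos hr.le hr1)
    have h1 := Real.quadratic_le_exp_of_nonneg h0
    rw [Real.exp_neg, Real.exp_log hr] at h1
    have h2 : (1 - -log r + (-log r) ^ 2 / 2) * (1 + -log r + (-log r) ^ 2 / 2) =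
        1 + (-log r) ^ 4 / 4 := by ring
    have h3 : 0 ≤ 1 - -log r + (-log r) ^ 2 / 2 := by nlinarith [sq_nonneg (-log r - 1)]
    have h4 := mul_le_mul_of_nonneg_left h1 h3
    rw [h2] at h4
    rw [← inv_inv r]
    have h5 : 0 < r⁻¹ := inv_pos.2 hr
    rw [inv_le_iff_one_le_mul₀ h5, inv_inv]
    nlinarith [pow_nonneg h0 4]
  set w := (r ^ p)⁻¹ with hwdef
  have hA := logLo_cubic hw
  have hB := log_sq_le hw
  have h1 : (p : ℝ) * (r - 1) ≤ -log w + log w ^ 2 / (2 * (p : ℝ)) := by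
    have := mul_le_mul_of_nonneg_left (sub_le_sub_right hr' 1) hp0.le
    refine this.trans (le_of_eq ?_)
    rw [hl]; field_simp; ring
  have h2 : log w ^ 2 / (2 * (p : ℝ)) ≤ 1 / (2 * (p : ℝ)) * ((w - 1) ^ 2 / w) := by
    rw [one_div_mul_eq_div]; exact div_le_div_of_nonneg_right hB (by positivity)
  have e : (w / (w + 1) - 2 / 3 * (w * (w - 1) / (w + 1) ^ 3)) * ((w - 1) ^ 2 / w) =
      w - 1 - (2 * ((w - 1) / (w + 1)) + 2 / 3 * ((w - 1) / (w + 1)) ^ 3) := by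
    field_simp; ring
  rw [twS, add_mul, e]
  linarith

theorem twS_mono (p : ℕ) {a b : ℝ} (ha : 1 ≤ a) (hab : a ≤ b) : twS p a ≤ twS p b := by
  set F : ℝ → ℝ := fun w => w / (w + 1) - 2 / 3 * (w * (w - 1) / (w + 1) ^ 3) with hF
  have hd : ∀ w ∈ Ici (1 : ℝ), HasDerivAt F
      (1 / (w + 1) ^ 2 - 2 / 3 * ((-w ^ 2 + 4 * w - 1) / (w + 1) ^ 4)) w := by
    intro w hw
    have h0 : w + 1 ≠ 0 := by linarith [show (1 : ℝ) ≤ w from hw]
    have h := ((hasDerivAt_id w).div ((hasDerivAt_id w).add_const 1) h0).sub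
      ((((hasDerivAt_id w).mul ((hasDerivAt_id w).sub_const 1)).div
        (((hasDerivAt_id w).add_const 1).pow 3) (pow_ne_zero 3 h0)).const_mul (2 / 3 : ℝ))
    refine h.congr_deriv ?_
    simp only [id_eq, Pi.mul_apply, Pi.pow_apply, Nat.cast_ofNat, show 3 - 1 = 2 from rfl]
    field_simp
    ring
  have hm : MonotoneOn F (Ici 1) := by
    refine monotoneOn_of_hasDerivWithinAt_nonneg (convex_Ici 1)
      (fun w hw => (hd w hw).continuousAt.continuousWithinAt)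
      (fun w hw => (hd w (interior_subset hw)).hasDerivWithinAt) fun w hw => ?_
    have hw1 : (1 : ℝ) ≤ w := interior_subset hw
    rw [sub_nonneg, mul_div_assoc', div_le_div_iff₀ (by positivity) (by positivity)]
    nlinarith [mul_nonneg (mul_nonneg (sq_nonneg (w + 1)) (show (0 : ℝ) ≤ w by linarith))
      (show (0 : ℝ) ≤ w - 1 by linarith)]
  have := hm ha (ha.trans hab) hab
  simp only [hF] at this
  unfold twS
  linarith

theorem excessLow_le_lin (p : ℕ) (hp : 2 ≤ p) {u : ℝ} (hu : 0 ≤ u) :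
    excessLow p u ≤ (1 + 2 / (p : ℝ)) * u := by
  have hp2 : (2 : ℝ) ≤ p := by exact_mod_cast hp
  have h1 : (1 - 2 / (p : ℝ)) / (1 + u) ≤ 1 - 2 / (p : ℝ) :=
    div_le_self (by rw [sub_nonneg, div_le_one (by linarith)]; linarith) (by linarith)
  have h2 : (2 + u) / (1 + u) ^ 2 ≤ 2 := by
    rw [div_le_iff₀ (by positivity)]; nlinarith
  have h3 := mul_le_mul_of_nonneg_left h2 (show 0 ≤ 2 / (p : ℝ) by positivity)
  rw [excessLow, mul_comm u]
  refine mul_le_mul_of_nonneg_right ?_ hu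
  linarith

variable {p : ℕ} {g d β ell lam c2 A LA U LU : ℝ} {y t r : ℝ}

/-- The majorant on `1 ≤ w ≤ W`. -/
theorem upper_le (hp : 1 ≤ p) (hy : y ∈ Icc (-1 : ℝ) 1) (hr : 0 < r) (hr1 : r ≤ 1)
    (hg : 0 ≤ g) (hd : 0 ≤ d) (hβ : 0 ≤ β) {W kp kw κ qc : ℝ} (hW : (r ^ p)⁻¹ ≤ W)
    (hkp : kp ≤ majKp β d y (t - y)) (hkp0 : 0 ≤ kp)
    (hkw : majKw p g d β ell c2 y (t - y) ≤ kw) (hkw0 : 0 ≤ kw)
    (hκ : κ * (r ^ p)⁻¹ ≤ kp * (1 + 1 / ((p : ℝ) * W)) - kw * twS p W)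
    (hq : qc ≤ max 0 (1 - ((p : ℝ) + 1) / p * (W - 1))) :
    density p 0 g d β ell lam c2 y t r + semi y ^ (p + 1) *
        (LA * (t - y) + A * ((r ^ p)⁻¹ - 1) + LU * (t - y) ^ 2 +
          2 * U * (t - y) * ((r ^ p)⁻¹ - 1)) ≤
      semi y ^ (p + 1) * (majZero p g d c2 y + majLin p g d β ell c2 A LA U y (t - y) ((r ^ p)⁻¹ - 1) -
        κ * ((r ^ p)⁻¹ - 1) ^ 2 +
        ((g + d * β ^ 2) * ((p : ℝ) + 4) + LU - β * majC β d * qc) * (t - y) ^ 2) := by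
  rw [density_quad p hp g d β ell lam c2 A LA U LU hy hr]
  refine mul_le_mul_of_nonneg_left ?_ (pow_nonneg (Real.sqrt_nonneg _) _)
  have hp0 : (0 : ℝ) < p := Nat.cast_pos.2 (by omega)
  have hE := excess_le_sharp p hp hr hr1
  have hW0 := excess_nonneg p hr
  have hKp0 : 0 ≤ majKp β d y (t - y) := hkp0.trans hkp
  set v := r ^ p with hv
  have hv0 : 0 < v := pow_pos hr p
  have hv1 : v ≤ 1 := pow_le_one₀ hr.le hr1
  set w := v⁻¹ with hw
  have hw1 : 1 ≤ w := (one_le_inv₀ hv0).2 hv1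
  have hB : 1 - v ≤ (p : ℝ) * (1 - r) := by
    have := one_add_mul_le_pow (a := r - 1) (by linarith) p
    rw [add_sub_cancel, ← hv] at this; linarith
  have hD : 1 / ((p : ℝ) * w) * ((w - 1) ^ 2 / w) ≤ (r - 1) * (v - 1) := by
    have e : 1 / ((p : ℝ) * w) * ((w - 1) ^ 2 / w) = (1 - v) / p * (1 - v) := by
      rw [hw]; field_simp
    rw [e, show (r - 1) * (v - 1) = (1 - r) * (1 - v) by ring]
    exact mul_le_mul_of_nonneg_right ((div_le_iff₀ hp0).2 (by linarith)) (by linarith)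
  have hKW : majKw p g d β ell c2 y (t - y) * (w - 1 + (p : ℝ) * (r - 1)) ≤
      kw * (twS p W * ((w - 1) ^ 2 / w)) :=
    (mul_le_mul_of_nonneg_right hkw hW0).trans (mul_le_mul_of_nonneg_left (hE.trans
      (mul_le_mul_of_nonneg_right (twS_mono p hw1 hW) (by positivity))) hkw0)
  have hKD : kp * (1 + 1 / ((p : ℝ) * W)) * ((w - 1) ^ 2 / w) ≤
      majKp β d y (t - y) * ((w - 1) ^ 2 / w + (r - 1) * (v - 1)) := by
    have h1 : 1 / ((p : ℝ) * W) * ((w - 1) ^ 2 / w) ≤ (r - 1) * (v - 1) :=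
      le_trans (mul_le_mul_of_nonneg_right (one_div_le_one_div_of_le (by positivity)
        (mul_le_mul_of_nonneg_left hW hp0.le)) (by positivity)) hD
    rw [mul_assoc]
    refine mul_le_mul hkp (by linarith) ?_ hKp0
    have : 0 ≤ 1 / ((p : ℝ) * W) := one_div_nonneg.2 (mul_nonneg hp0.le (by linarith))
    positivity
  have hcurv : κ * (w - 1) ^ 2 ≤
      (kp * (1 + 1 / ((p : ℝ) * W)) - kw * twS p W) * ((w - 1) ^ 2 / w) := by
    rw [← mul_div_assoc, le_div_iff₀ (by positivity)]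
    nlinarith [mul_le_mul_of_nonneg_right hκ (sq_nonneg (w - 1))]
  have hcq : 0 ≤ β * majC β d := by unfold majC; positivity
  have hQ : r * ((g + d * β ^ 2) * ((p : ℝ) + 4)) - β * majC β d * r ^ (p + 1) ≤
      (g + d * β ^ 2) * ((p : ℝ) + 4) - β * majC β d * qc := by
    refine sub_le_sub (mul_le_of_le_one_left (by positivity) hr1)
      (mul_le_mul_of_nonneg_left (hq.trans (max_le (pow_nonneg hr.le _) ?_)) hcq)
    have h1 := one_add_mul_le_pow (a := r - 1) (by linarith) (p + 1)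
    rw [add_sub_cancel] at h1
    push_cast at h1
    have h3 := one_sub_inv_pow_le p hr
    have h4 : ((p : ℝ) + 1) / p * (w - 1) ≤ ((p : ℝ) + 1) / p * (W - 1) :=
      mul_le_mul_of_nonneg_left (by linarith) (by positivity)
    rw [← hv, ← hw] at h3
    have h2 : ((p : ℝ) + 1) / p * (1 - w) ≤ ((p : ℝ) + 1) * (r - 1) := by
      rw [div_mul_eq_mul_div, div_le_iff₀ hp0]
      nlinarith
    linarith
  have hθ := mul_le_mul_of_nonneg_right hQ (sq_nonneg (t - y))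
  linarith

/-- The deficit and the excess on `w ≤ 1`, before a choice of the curvature. -/
theorem lower_core (hp : 2 ≤ p) (hy : y ∈ Icc (-1 : ℝ) 1) (hr1 : 1 ≤ r) (hd : 0 ≤ d) (hβ : 0 ≤ β)
    (hK2 : (g + d * β ^ 2) * ((p : ℝ) + 4) ≤ ((p : ℝ) + 1) * (β * majC β d))
    {kp kw qc B : ℝ} (hkp : kp ≤ majKp β d y (t - y)) (hkp0 : 0 ≤ kp)
    (hkw : majKw p g d β ell c2 y (t - y) ≤ kw) (hkw0 : 0 ≤ kw) (hq : qc ≤ 1)
    (hB : -((kp * (1 + 1 / (p : ℝ)) - kw * excessLow p √((r ^ p)⁻¹)) *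
      (((r ^ p)⁻¹ - 1) ^ 2 / (r ^ p)⁻¹)) ≤ B) :
    density p 0 g d β ell lam c2 y t r + semi y ^ (p + 1) *
        (LA * (t - y) + A * ((r ^ p)⁻¹ - 1) + LU * (t - y) ^ 2 +
          2 * U * (t - y) * ((r ^ p)⁻¹ - 1)) ≤
      semi y ^ (p + 1) * (majZero p g d c2 y + majLin p g d β ell c2 A LA U y (t - y) ((r ^ p)⁻¹ - 1) +
        B + ((g + d * β ^ 2) * ((p : ℝ) + 4) + LU - β * majC β d * qc) * (t - y) ^ 2) := by
  refine (density_maj_le_one p hp hy hr1 hd hβ (hkp0.trans hkp) hK2).trans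
    (mul_le_mul_of_nonneg_left ?_ (pow_nonneg (Real.sqrt_nonneg _) _))
  have hw0 : 0 < (r ^ p)⁻¹ := inv_pos.2 (pow_pos (by linarith) p)
  set e := ((r ^ p)⁻¹ - 1) ^ 2 / (r ^ p)⁻¹ with he
  have he0 : 0 ≤ e := by positivity
  have hp2 : (2 : ℝ) ≤ p := by exact_mod_cast hp
  have hx0 : 0 ≤ excessLow p √((r ^ p)⁻¹) := by
    have h1 : 0 ≤ (1 - 2 / (p : ℝ)) := by rw [sub_nonneg, div_le_one (by linarith)]; linarith
    unfold excessLow
    positivity
  have h1 : (kp * (1 + 1 / (p : ℝ)) - kw * excessLow p √((r ^ p)⁻¹)) * e ≤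
      (majKp β d y (t - y) * (1 + 1 / (p : ℝ)) -
        max 0 (majKw p g d β ell c2 y (t - y)) * excessLow p √((r ^ p)⁻¹)) * e :=
    mul_le_mul_of_nonneg_right (sub_le_sub (mul_le_mul_of_nonneg_right hkp (by positivity))
      (mul_le_mul_of_nonneg_right (max_le hkw0 hkw) hx0)) he0
  have hcq : 0 ≤ β * majC β d := by unfold majC; positivity
  have h2 := mul_le_mul_of_nonneg_right (mul_le_mul_of_nonneg_left hq hcq) (sq_nonneg (t - y))
  linarith

/-- The majorant on `w ≤ 1` with a curvature. -/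
theorem lower_curv (hp : 2 ≤ p) (hy : y ∈ Icc (-1 : ℝ) 1) (hr1 : 1 ≤ r) (hd : 0 ≤ d) (hβ : 0 ≤ β)
    (hK2 : (g + d * β ^ 2) * ((p : ℝ) + 4) ≤ ((p : ℝ) + 1) * (β * majC β d))
    {kp kw κ qc : ℝ} (hkp : kp ≤ majKp β d y (t - y)) (hkp0 : 0 ≤ kp)
    (hkw : majKw p g d β ell c2 y (t - y) ≤ kw) (hkw0 : 0 ≤ kw) (hq : qc ≤ 1)
    (hk1 : 0 ≤ kp * (1 + 1 / (p : ℝ)) - kw * (1 / 2 + 1 / (2 * (p : ℝ))))
    (hκ : κ ≤ kp * (1 + 1 / (p : ℝ)) - kw * (1 / 2 + 1 / (2 * (p : ℝ)))) :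
    density p 0 g d β ell lam c2 y t r + semi y ^ (p + 1) *
        (LA * (t - y) + A * ((r ^ p)⁻¹ - 1) + LU * (t - y) ^ 2 +
          2 * U * (t - y) * ((r ^ p)⁻¹ - 1)) ≤
      semi y ^ (p + 1) * (majZero p g d c2 y + majLin p g d β ell c2 A LA U y (t - y) ((r ^ p)⁻¹ - 1) -
        κ * ((r ^ p)⁻¹ - 1) ^ 2 +
        ((g + d * β ^ 2) * ((p : ℝ) + 4) + LU - β * majC β d * qc) * (t - y) ^ 2) := by
  refine (lower_core hp hy hr1 hd hβ hK2 hkp hkp0 hkw hkw0 hq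
    (B := -(κ * ((r ^ p)⁻¹ - 1) ^ 2)) ?_).trans (le_of_eq (by ring))
  have hv : 1 ≤ r ^ p := one_le_pow₀ hr1
  have hw1 : (r ^ p)⁻¹ ≤ 1 := inv_le_one_of_one_le₀ hv
  have hw0 : 0 < (r ^ p)⁻¹ := inv_pos.2 (by linarith)
  set w := (r ^ p)⁻¹
  have hx := excessLow_le p hp (Real.sqrt_nonneg w) (Real.sqrt_le_one.2 hw1)
  rw [neg_le_neg_iff]
  have h1 : κ * w ≤ kp * (1 + 1 / (p : ℝ)) - kw * excessLow p √w := by
    have h2 := mul_le_mul_of_nonneg_left hx hkw0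
    rcases le_total 0 κ with h | h
    · have := mul_le_of_le_one_right h hw1; linarith
    · have := mul_nonpos_of_nonpos_of_nonneg h hw0.le; linarith
  rw [← mul_div_assoc, le_div_iff₀ hw0]
  nlinarith [mul_le_mul_of_nonneg_right h1 (sq_nonneg (w - 1))]

/-- The majorant on `w ≤ 1` with a slope in `s`, when the curvature at `w = 1` is negative. -/
theorem lower_lin (hp : 2 ≤ p) (hy : y ∈ Icc (-1 : ℝ) 1) (hr1 : 1 ≤ r) (hd : 0 ≤ d) (hβ : 0 ≤ β)
    (hK2 : (g + d * β ^ 2) * ((p : ℝ) + 4) ≤ ((p : ℝ) + 1) * (β * majC β d))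
    {kp kw n nk u0 qc : ℝ} (hkp : kp ≤ majKp β d y (t - y)) (hkp0 : 0 ≤ kp)
    (hkw : majKw p g d β ell c2 y (t - y) ≤ kw) (hkw0 : 0 ≤ kw) (hq : qc ≤ 1)
    (hnk : kw * (1 / 2 + 1 / (2 * (p : ℝ))) - kp * (1 + 1 / (p : ℝ)) ≤ nk) (hnk0 : 0 ≤ nk)
    (hu0 : 0 < u0) (hu : kw * ((1 + 2 / (p : ℝ)) * u0) ≤ kp * (1 + 1 / (p : ℝ)))
    (hn : nk * (1 / u0 ^ 2 - 1) ≤ n) (hn0 : 0 ≤ n) :
    density p 0 g d β ell lam c2 y t r + semi y ^ (p + 1) *
        (LA * (t - y) + A * ((r ^ p)⁻¹ - 1) + LU * (t - y) ^ 2 +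
          2 * U * (t - y) * ((r ^ p)⁻¹ - 1)) ≤
      semi y ^ (p + 1) * (majZero p g d c2 y + majLin p g d β ell c2 A LA U y (t - y) ((r ^ p)⁻¹ - 1) -
        n * ((r ^ p)⁻¹ - 1) +
        ((g + d * β ^ 2) * ((p : ℝ) + 4) + LU - β * majC β d * qc) * (t - y) ^ 2) := by
  refine (lower_core hp hy hr1 hd hβ hK2 hkp hkp0 hkw hkw0 hq
    (B := -(n * ((r ^ p)⁻¹ - 1))) ?_).trans (le_of_eq (by ring))
  have hv : 1 ≤ r ^ p := one_le_pow₀ hr1
  have hw1 : (r ^ p)⁻¹ ≤ 1 := inv_le_one_of_one_le₀ hv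
  have hw0 : 0 < (r ^ p)⁻¹ := inv_pos.2 (by linarith)
  set w := (r ^ p)⁻¹
  set x := excessLow p √w with hxdef
  have hx := mul_le_mul_of_nonneg_left (excessLow_le p hp (Real.sqrt_nonneg w) (Real.sqrt_le_one.2 hw1)) hkw0
  have hx2 := mul_le_mul_of_nonneg_left (excessLow_le_lin p hp (Real.sqrt_nonneg w)) hkw0
  rw [← hxdef] at hx hx2
  rcases le_total (kw * x) (kp * (1 + 1 / (p : ℝ))) with h | h
  · have : 0 ≤ (kp * (1 + 1 / (p : ℝ)) - kw * x) * ((w - 1) ^ 2 / w) :=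
      mul_nonneg (by linarith) (by positivity)
    nlinarith [mul_nonneg hn0 (show 0 ≤ 1 - w by linarith)]
  · -- there `u₀ ≤ √w`
    have hw2 : u0 ^ 2 ≤ w ∨ kp * (1 + 1 / (p : ℝ)) - kw * x = 0 := by
      by_cases hkz : kw = 0
      · right
        subst hkz
        have : 0 ≤ kp * (1 + 1 / (p : ℝ)) := by positivity
        linarith
      · left
        have h3 : kw * ((1 + 2 / (p : ℝ)) * u0) ≤ kw * ((1 + 2 / (p : ℝ)) * √w) := by linarith
        have h4 : u0 ≤ √w := le_of_mul_le_mul_left (le_of_mul_le_mul_left h3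
          (lt_of_le_of_ne hkw0 (Ne.symm hkz))) (by positivity)
        have := pow_le_pow_left₀ hu0.le h4 2
        rwa [Real.sq_sqrt hw0.le] at this
    rcases hw2 with hw2 | hz
    · have e : ((w - 1) ^ 2 / w) = (1 - w) * (1 / w - 1) := by field_simp; ring
      have h5 : 1 / w - 1 ≤ 1 / u0 ^ 2 - 1 := by
        have := one_div_le_one_div_of_le (by positivity) hw2; linarith
      have h6 : 0 ≤ 1 / w - 1 := by rw [sub_nonneg, le_div_iff₀ hw0]; linarith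
      rw [e]
      have h7 : (kw * x - kp * (1 + 1 / (p : ℝ))) * (1 / w - 1) ≤ nk * (1 / u0 ^ 2 - 1) :=
        mul_le_mul (by linarith) h5 h6 hnk0
      nlinarith [mul_le_mul_of_nonneg_left (h7.trans hn) (show 0 ≤ 1 - w by linarith)]
    · rw [hz]
      nlinarith [mul_nonneg hn0 (show 0 ≤ 1 - w by linarith)]

end Vale.Agent.P237.All.Transport.Small
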