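import Vale.Agent.P237.All.Mid.Region
import Vale.Agent.P237.All.Middle.Mills

/-!
P237, every dimension, small excess: what a failing profile can reach, uniformly in `k ≤ k_b`: the
ridge through chords (near `y` in `ψ = υ / k`, far from it in `υ`), and the band on both sides.
-/

noncomputable section

open MeasureTheory Set Filter Real intervalIntegral

namespace Vale.Agent.P237.All.Transport.Small

open Mid (Pt XP epsP eps_pos eps_le_one sig ups phi ridge_secant lam_pow_sub)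

variable {p : ℕ} {k kb y t r lam : ℝ}

/-- An exponential through a chord. -/
theorem exp_chord {z0 z1 c0 c1 : ℝ} (h0 : 0 ≤ c0) (h1 : 0 ≤ c1) (h : c0 + c1 = 1) :
    exp (c0 * z0 + c1 * z1) ≤ c0 * exp z0 + c1 * exp z1 := by
  have := convexOn_exp.2 (mem_univ z0) (mem_univ z1) h0 h1 h
  simpa using this

/-- Scaling below one. -/
theorem exp_scale {s z : ℝ} (h0 : 0 ≤ s) (h1 : s ≤ 1) : exp (s * z) ≤ 1 + s * (exp z - 1) := by
  have h := exp_chord (z0 := z) (z1 := 0) h0 (show 0 ≤ 1 - s by linarith) (by ring)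
  rw [mul_zero, add_zero, Real.exp_zero] at h
  linarith

/-- The exponent of the ridge is below its chord from zero. -/
theorem phi_scale (hy : y ∈ Ioo (0 : ℝ) 1) {s v : ℝ} (hs0 : 0 ≤ s) (hs1 : s ≤ 1)
    (h0 : -1 < y * (1 + v * epsP p)) (h1 : y * (1 + v * epsP p) < 1) :
    -1 < y * (1 + s * v * epsP p) ∧ y * (1 + s * v * epsP p) < 1 ∧ phi p y (s * v) ≤ s * phi p y v := by
  have hS : 0 < 1 - y ^ 2 := by nlinarith [hy.1, hy.2]
  have e : y * (1 + s * v * epsP p) = (1 - s) * y + s * (y * (1 + v * epsP p)) := by ring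
  set a := y * (1 + v * epsP p) with ha
  have hb : -1 < y * (1 + s * v * epsP p) ∧ y * (1 + s * v * epsP p) < 1 := by
    rw [e]
    rcases hs0.lt_or_eq with hs | hs
    · constructor <;> nlinarith [hy.1, hy.2, mul_lt_mul_of_pos_left h0 hs, mul_lt_mul_of_pos_left h1 hs]
    · rw [← hs]; constructor <;> linarith [hy.1, hy.2]
  refine ⟨hb.1, hb.2, ?_⟩
  have ga : 0 < 1 - a ^ 2 := by nlinarith
  have gs : 0 < 1 - (y * (1 + s * v * epsP p)) ^ 2 := by nlinarith [hb.1, hb.2]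
  have hc := strictConcaveOn_log_Ioi.concaveOn.2 (show (1 - y ^ 2) ∈ Ioi (0 : ℝ) from hS)
    (show (1 - a ^ 2) ∈ Ioi (0 : ℝ) from ga) (show 0 ≤ 1 - s by linarith) hs0 (by ring)
  simp only [smul_eq_mul] at hc
  have hpos : 0 < (1 - s) * (1 - y ^ 2) + s * (1 - a ^ 2) := by
    rcases hs1.lt_or_eq with hs | hs
    · nlinarith [mul_pos (sub_pos.2 hs) hS, mul_nonneg hs0 ga.le]
    · rw [hs]; linarith
  have hm : (1 - s) * (1 - y ^ 2) + s * (1 - a ^ 2) ≤ 1 - (y * (1 + s * v * epsP p)) ^ 2 := by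
    rw [e]; nlinarith [mul_nonneg (mul_nonneg (show 0 ≤ 1 - s by linarith) hs0) (sq_nonneg (y - a))]
  have hl := hc.trans (Real.log_le_log hpos hm)
  have hε := eps_pos p
  have hco : 0 ≤ (1 - epsP p) / (2 * epsP p ^ 2) := by
    have := eps_le_one p; exact div_nonneg (by linarith) (by positivity)
  rw [phi, phi, ← ha, mul_left_comm]
  refine mul_le_mul_of_nonneg_left ?_ hco
  rw [Real.log_div gs.ne' hS.ne', Real.log_div ga.ne' hS.ne']
  linarith

theorem w_eq_exp (h : Pt p k y t r lam) :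
    (r ^ p)⁻¹ = exp (epsP p * (log (r ^ p)⁻¹ / epsP p)) := by
  rw [mul_div_cancel₀ _ (eps_pos p).ne', Real.exp_log (Mid.w_pos h)]

/-- Near `y`: `σ` below a chord in `ψ = υ / k`, for every `k ≤ k_b`. -/
theorem ridge_near (h : Pt p k y t r lam) (hk : 0 < k) (hkb : k ≤ kb) {A E P0 P1 a b : ℝ} (hAE : A < E)
    (hψ : ups p y t / k ∈ Icc A E)
    (h0 : -1 < y * (1 + kb * A * epsP p) ∧ y * (1 + kb * A * epsP p) < 1 ∧ phi p y (kb * A) ≤ P0)
    (h1 : -1 < y * (1 + kb * E * epsP p) ∧ y * (1 + kb * E * epsP p) < 1 ∧ phi p y (kb * E) ≤ P1)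
    (ha : exp (epsP p * (kb * (1 - epsP p) + P0)) ≤ 1 + epsP p * kb * a)
    (hb : exp (epsP p * (kb * (1 - epsP p) + P1)) ≤ 1 + epsP p * kb * b) :
    (E - A) * sig p r ≤ k * (a * (E - ups p y t / k) + b * (ups p y t / k - A)) := by
  set ψ := ups p y t / k with hψdef
  have eψ : ups p y t = k * ψ := by rw [hψdef]; field_simp
  have hε := eps_pos p
  have hkb0 : 0 < kb := hk.trans_le hkb
  set s := k / kb with hs
  have hs0 : 0 ≤ s := (div_pos hk hkb0).le
  have hs1 : s ≤ 1 := by rw [hs, div_le_one hkb0]; exact hkb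
  have esk : s * kb = k := by rw [hs]; field_simp
  obtain ⟨a0, a1, a2⟩ := h0
  obtain ⟨b0, b1, b2⟩ := h1
  obtain ⟨c0, c1, c2⟩ := phi_scale h.hy hs0 hs1 a0 a1
  obtain ⟨d0, d1, d2⟩ := phi_scale h.hy hs0 hs1 b0 b1
  rw [← mul_assoc, esk] at c0 c1 c2 d0 d1 d2
  have hsec := ridge_secant h (v0 := k * A) (v1 := k * E) (P0 := s * P0) (P1 := s * P1)
    (mul_lt_mul_of_pos_left hAE hk)
    (by rw [eψ]; exact ⟨mul_le_mul_of_nonneg_left hψ.1 hk.le, mul_le_mul_of_nonneg_left hψ.2 hk.le⟩)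
    ⟨c0, c1, c2.trans (mul_le_mul_of_nonneg_left a2 hs0)⟩
    ⟨d0, d1, d2.trans (mul_le_mul_of_nonneg_left b2 hs0)⟩
  rw [eψ] at hsec
  have hd : 0 < E - A := sub_pos.2 hAE
  set l0 := (E - ψ) / (E - A) with hl0
  set l1 := (ψ - A) / (E - A) with hl1
  have hl : l0 + l1 = 1 := by rw [hl0, hl1, ← add_div, div_eq_one_iff_eq hd.ne']; ring
  have hL : log (r ^ p)⁻¹ / epsP p ≤
      s * (l0 * (kb * (1 - epsP p) + P0) + l1 * (kb * (1 - epsP p) + P1)) := by
    refine le_of_mul_le_mul_left (hsec.trans (le_of_eq ?_)) (show 0 < k * E - k * A by nlinarith)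
    rw [hl0, hl1, ← esk]; field_simp; ring
  have hw : (r ^ p)⁻¹ ≤ 1 + s * (l0 * (1 + epsP p * kb * a) + l1 * (1 + epsP p * kb * b) - 1) := by
    rw [w_eq_exp h]
    refine (exp_le_exp.2 (mul_le_mul_of_nonneg_left hL hε.le)).trans ?_
    rw [mul_left_comm]
    refine (exp_scale hs0 hs1).trans (add_le_add le_rfl (mul_le_mul_of_nonneg_left (sub_le_sub_right ?_ 1) hs0))
    rw [mul_add, mul_left_comm (epsP p) l0, mul_left_comm (epsP p) l1]
    exact (exp_chord (div_nonneg (by linarith [hψ.2]) hd.le) (div_nonneg (by linarith [hψ.1]) hd.le) hl).trans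
      (add_le_add (mul_le_mul_of_nonneg_left ha (div_nonneg (by linarith [hψ.2]) hd.le))
        (mul_le_mul_of_nonneg_left hb (div_nonneg (by linarith [hψ.1]) hd.le)))
  rw [sig, mul_div_assoc', div_le_iff₀ hε]
  refine (mul_le_mul_of_nonneg_left (sub_le_sub_right hw 1) hd.le).trans (le_of_eq ?_)
  rw [← esk, hl0, hl1]; field_simp; ring

/-- Far from `y`: `v = σ` below a chord in `υ` plus a multiple of `k`. -/
theorem ridge_far (h : Pt p k y t r lam) (hk : 0 ≤ k) (hkb : k ≤ kb) (hkb0 : 0 < kb)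
    {A E P0 P1 a b γ c : ℝ} (hAE : A < E) (hυ : ups p y t ∈ Icc A E)
    (h0 : -1 < y * (1 + A * epsP p) ∧ y * (1 + A * epsP p) < 1 ∧ phi p y A ≤ P0)
    (h1 : -1 < y * (1 + E * epsP p) ∧ y * (1 + E * epsP p) < 1 ∧ phi p y E ≤ P1)
    (ha : exp (epsP p * P0) ≤ 1 + epsP p * a) (hb : exp (epsP p * P1) ≤ 1 + epsP p * b)
    (hγ : exp (epsP p * (kb * (1 - epsP p))) ≤ 1 + epsP p * kb * γ) (hγ0 : 0 ≤ γ)
    (hca : γ * (1 + epsP p * a) ≤ c) (hcb : γ * (1 + epsP p * b) ≤ c) :
    (E - A) * sig p r ≤ a * (E - ups p y t) + b * (ups p y t - A) + (E - A) * (k * c) := by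
  set υ := ups p y t with hυdef
  have hε := eps_pos p
  set s := k / kb with hs
  have hs0 : 0 ≤ s := div_nonneg hk hkb0.le
  have hs1 : s ≤ 1 := by rw [hs, div_le_one hkb0]; exact hkb
  have esk : s * kb = k := by rw [hs]; field_simp
  have hsec := ridge_secant h hAE hυ h0 h1
  have hd : 0 < E - A := sub_pos.2 hAE
  set l0 := (E - υ) / (E - A) with hl0
  set l1 := (υ - A) / (E - A) with hl1
  have hl : l0 + l1 = 1 := by rw [hl0, hl1, ← add_div, div_eq_one_iff_eq hd.ne']; ring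
  have hl00 : 0 ≤ l0 := div_nonneg (by linarith [hυ.2]) hd.le
  have hl10 : 0 ≤ l1 := div_nonneg (by linarith [hυ.1]) hd.le
  have hL : log (r ^ p)⁻¹ / epsP p ≤ s * (kb * (1 - epsP p)) + (l0 * P0 + l1 * P1) := by
    refine le_of_mul_le_mul_left (hsec.trans (le_of_eq ?_)) hd
    rw [← hυdef, hl0, hl1, ← mul_assoc s kb, esk]; field_simp; ring
  set e0 := 1 + epsP p * a with he0
  set e1 := 1 + epsP p * b with he1
  have hw : (r ^ p)⁻¹ ≤ (1 + s * (epsP p * kb * γ)) * (l0 * e0 + l1 * e1) := by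
    rw [w_eq_exp h]
    refine (exp_le_exp.2 (mul_le_mul_of_nonneg_left hL hε.le)).trans ?_
    rw [mul_add, Real.exp_add, mul_left_comm (epsP p) s]
    refine mul_le_mul ((exp_scale hs0 hs1).trans
      (add_le_add le_rfl (mul_le_mul_of_nonneg_left (by linarith) hs0))) ?_ (exp_pos _).le
      (add_nonneg zero_le_one (by positivity))
    rw [mul_add, mul_left_comm (epsP p) l0, mul_left_comm (epsP p) l1]
    exact (exp_chord hl00 hl10 hl).trans
      (add_le_add (mul_le_mul_of_nonneg_left ha hl00) (mul_le_mul_of_nonneg_left hb hl10))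
  have hce : γ * (l0 * e0 + l1 * e1) ≤ c := by
    have q0 := mul_le_mul_of_nonneg_left hca hl00
    have q1 := mul_le_mul_of_nonneg_left hcb hl10
    have : l0 * c + l1 * c = c := by rw [← add_mul, hl, one_mul]
    linarith
  have hw2 : (r ^ p)⁻¹ ≤ l0 * e0 + l1 * e1 + epsP p * (k * c) := by
    have := mul_le_mul_of_nonneg_left hce (mul_nonneg hε.le hk)
    rw [← esk] at this ⊢
    linarith
  rw [sig, mul_div_assoc', div_le_iff₀ hε]
  refine (mul_le_mul_of_nonneg_left (sub_le_sub_right hw2 1) hd.le).trans (le_of_eq ?_)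
  rw [he0, he1, hl0, hl1]; field_simp; ring

/-- The band behind `y`, with the sharp tail. -/
theorem band_behind (h : Pt p k y t r lam) (hp : 29 ≤ p) (hk : 0 ≤ k) (hk2 : k * epsP p < 2)
    {γ x0 den : ℝ} (hγ : 1 / (1 + epsP p - k * epsP p / 2) ≤ γ) (hx0 : 0 ≤ x0)
    (hx : x0 ^ 2 ≤ XP p y) (hden : 0 < den)
    (hd : den ≤ XP p y + (1 - y ^ 2) *
      (x0 * (x0 + 313 / 100) / (x0 ^ 2 + 313 / 100 * x0 + 201 / 50))) :
    -(k * γ * (1 - y ^ 2) / den) ≤ ups p y t := by
  have hy0 := h.hy.1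
  have hε := eps_pos p
  have hS : 0 ≤ 1 - y ^ 2 := by nlinarith [h.hy.2]
  have hb := Middle.band_back2 hp h.hy h.ht h.hlam h.back
  have hl := lam_pow_sub h hk hk2 hγ
  have hγ0 : 0 ≤ γ := le_trans (one_div_nonneg.2 (by linarith)) hγ
  have hsA : 0 < √((p : ℝ) + 2) := Real.sqrt_pos.2 (by positivity)
  have hM := Middle.millsLow_pos p (u := y) ⟨hy0.le, h.hy.2⟩
  set x := √((p : ℝ) + 2) * y with hxdef
  have hxX : x ^ 2 = XP p y := by rw [hxdef, mul_pow, Real.sq_sqrt (by positivity), XP]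
  have hx' : x0 ≤ x := (pow_le_pow_iff_left₀ hx0 (by positivity) two_ne_zero).1 (hxX ▸ hx)
  have hmono : x0 * (x0 + 313 / 100) / (x0 ^ 2 + 313 / 100 * x0 + 201 / 50) ≤
      x * (x + 313 / 100) / (x ^ 2 + 313 / 100 * x + 201 / 50) := by
    have : 0 ≤ x := hx0.trans hx'
    rw [div_le_div_iff₀ (by positivity) (by positivity)]
    nlinarith
  have hden' : den ≤ x * Middle.millsLow p y := by
    refine hd.trans ?_
    have e : x * Middle.millsLow p y =
        x ^ 2 + (1 - y ^ 2) * (x * (x + 313 / 100) / (x ^ 2 + 313 / 100 * x + 201 / 50)) := by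
      rw [Middle.millsLow, ← hxdef]; ring
    rw [e, ← hxX]
    exact add_le_add le_rfl (mul_le_mul_of_nonneg_left hmono hS)
  have h2 : y - t ≤ k * γ * epsP p * (1 - y ^ 2) / (√((p : ℝ) + 2) * Middle.millsLow p y) :=
    hb.trans (div_le_div_of_nonneg_right (mul_le_mul_of_nonneg_right hl hS) (by positivity))
  rw [ups, le_div_iff₀ (by positivity)]
  have h3 : k * γ * epsP p * (1 - y ^ 2) / (√((p : ℝ) + 2) * Middle.millsLow p y) ≤
      k * γ * (1 - y ^ 2) / den * (epsP p * y) := by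
    rw [div_mul_eq_mul_div, div_le_div_iff₀ (by positivity) hden]
    have := mul_le_mul_of_nonneg_left hden'
      (show 0 ≤ k * γ * epsP p * (1 - y ^ 2) by positivity)
    rw [hxdef] at this
    linarith
  linarith

/-- The half mass below a multiple of the ordinate at its end. -/
theorem mass_le_series (p : ℕ) {y a : ℝ} (hy : y ∈ Ioo (0 : ℝ) 1)
    (ha : (p : ℝ) * y ^ 2 ≤ 3 * a * (1 - y ^ 2)) (ha1 : a < 1) :
    mass p semi y * (1 - a) ≤ y * semi y ^ p := by
  have hS : 0 < 1 - y ^ 2 := by nlinarith [hy.1, hy.2]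
  set K := a / y ^ 2 with hK
  have hy2 : 0 < y ^ 2 := pow_pos hy.1 2
  have ha0 : 0 ≤ a := by
    have : 0 ≤ 3 * a * (1 - y ^ 2) := le_trans (by positivity) ha
    nlinarith
  have hK0 : 0 ≤ K := by positivity
  set G : ℝ → ℝ := fun u => u * semi u ^ p / (1 - K * u ^ 2) - mass p semi u with hG
  have hden : ∀ u ∈ Icc (0 : ℝ) y, 0 < 1 - K * u ^ 2 := fun u hu => by
    have : K * u ^ 2 ≤ a := by
      refine (mul_le_mul_of_nonneg_left (pow_le_pow_left₀ hu.1 hu.2 2) hK0).trans (le_of_eq ?_)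
      rw [hK, div_mul_cancel₀ _ hy2.ne']
    linarith
  have hd : ∀ u ∈ Icc (0 : ℝ) y, HasDerivAt G
      (semi u ^ p * ((1 - (p : ℝ) * u ^ 2 / (1 - u ^ 2)) / (1 - K * u ^ 2) +
        2 * K * u ^ 2 / (1 - K * u ^ 2) ^ 2) - semi u ^ p) u := by
    intro u hu
    have hu' : u ∈ Ioo (-1 : ℝ) 1 := ⟨by linarith [hu.1], by linarith [hu.2, hy.2]⟩
    have hd0 := (hden u hu).ne'
    have h := (((hasDerivAt_id u).mul ((semi_hasDerivAt hu').pow p)).div
      (((hasDerivAt_pow 2 u).const_mul K).const_sub 1) hd0).sub (semi_mass_hasDerivAt p u)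
    refine h.congr_deriv ?_
    have hs := (semi_pos hu').ne'
    have hsq := semi_sq (t := u) (Ioo_subset_Icc_self hu')
    simp only [id_eq, Pi.pow_apply, Pi.mul_apply, Nat.cast_ofNat, show 2 - 1 = 1 from rfl, pow_one,
      ← hsq]
    rcases Nat.eq_zero_or_pos p with hp | hp
    · subst hp; simp only [Nat.cast_zero, pow_zero]; field_simp; ring
    · obtain ⟨n, rfl⟩ : ∃ n, p = n + 1 := ⟨p - 1, by omega⟩
      simp only [Nat.add_sub_cancel]
      push_cast
      field_simp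
      ring
  have hm : MonotoneOn G (Icc 0 y) := by
    refine monotoneOn_of_hasDerivWithinAt_nonneg (convex_Icc 0 y)
      (fun u hu => (hd u hu).continuousAt.continuousWithinAt)
      (fun u hu => (hd u (interior_subset hu)).hasDerivWithinAt) fun u hu => ?_
    have hu1 : u ∈ Icc (0 : ℝ) y := interior_subset hu
    have hu2 : 0 < 1 - u ^ 2 := by nlinarith [hu1.1, hu1.2, hy.2]
    rw [sub_nonneg]
    refine le_mul_of_one_le_right (pow_nonneg (Real.sqrt_nonneg _) _) ?_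
    have hdu := hden u hu1
    have h3 : (p : ℝ) * u ^ 2 / (1 - u ^ 2) ≤ 3 * (K * u ^ 2) := by
      rw [div_le_iff₀ hu2]
      have q1 : (p : ℝ) ≤ 3 * K * (1 - y ^ 2) := by
        rw [hK, mul_div_assoc', div_mul_eq_mul_div, le_div_iff₀ hy2]; exact ha
      have q2 : 3 * K * (1 - y ^ 2) ≤ 3 * K * (1 - u ^ 2) :=
        mul_le_mul_of_nonneg_left (by nlinarith [hu1.1, hu1.2]) (by positivity)
      nlinarith [mul_le_mul_of_nonneg_right (q1.trans q2) (sq_nonneg u)]
    generalize (p : ℝ) * u ^ 2 / (1 - u ^ 2) = b at h3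
    rw [show 2 * K * u ^ 2 = 2 * (K * u ^ 2) by ring]
    generalize hc : K * u ^ 2 = c at h3 hdu
    have hc0 : 0 ≤ c := hc ▸ mul_nonneg hK0 (sq_nonneg u)
    rw [div_add_div _ _ hdu.ne' (pow_ne_zero 2 hdu.ne'), one_le_div (by positivity)]
    nlinarith [mul_nonneg hdu.le (mul_nonneg (sub_nonneg.2 h3) hdu.le), mul_nonneg hdu.le (sq_nonneg c)]
  have h := hm (left_mem_Icc.2 hy.1.le) (right_mem_Icc.2 hy.1.le) hy.1.le
  have e : K * y ^ 2 = a := by rw [hK, div_mul_cancel₀ _ hy2.ne']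
  simp only [hG, mass, intervalIntegral.integral_same, zero_mul, zero_div, sub_zero, e, sub_nonneg] at h
  rw [mass]
  exact (le_div_iff₀ (by linarith)).1 h

/-- The band ahead of `y`: `υ ≤ k T`. -/
theorem band_ahead (h : Pt p k y t r lam) (hk : 0 < k) (hk2 : k * epsP p < 2) (hkb : k ≤ kb)
    (hfwd : mass p semi t ≤ lam ^ p * mass p semi y) {γ hb T P e : ℝ}
    (hγ : 1 / (1 + epsP p - k * epsP p / 2) ≤ γ) (hH : mass p semi y ≤ hb * (y * semi y ^ p))
    (hT : 0 ≤ T) (hPh : -1 < y * (1 + kb * T * epsP p) ∧ y * (1 + kb * T * epsP p) < 1 ∧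
      phi p y (kb * T) ≤ P) (hP : 0 ≤ P) (he : exp (epsP p * P) ≤ e) (hlt : γ * hb * e < T) :
    ups p y t ≤ k * T := by
  by_contra hlt'
  push Not at hlt'
  have hy0 := h.hy.1
  have hε := eps_pos p
  have hkb0 : 0 < kb := hk.trans_le hkb
  set s := k / kb with hs
  have hs0 : 0 ≤ s := (div_pos hk hkb0).le
  have hs1 : s ≤ 1 := by rw [hs, div_le_one hkb0]; exact hkb
  obtain ⟨c0, c1, c2⟩ := phi_scale h.hy hs0 hs1 hPh.1 hPh.2.1
  have esk : s * (kb * T) = k * T := by rw [hs]; field_simp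
  rw [esk] at c0 c1 c2
  set t1 := y * (1 + k * T * epsP p) with ht1
  have hyt1 : y ≤ t1 := by
    rw [ht1]; have : 0 ≤ k * T * epsP p := by positivity
    nlinarith
  have ht1t : t1 ≤ t := by
    rw [ups, lt_div_iff₀ (by positivity)] at hlt'
    rw [ht1]; linarith
  have hi : ∀ a b : ℝ, IntervalIntegrable (fun v => semi v ^ p) volume a b := fun a b =>
    (semi_continuous.pow p).intervalIntegrable a b
  have h1 : (t1 - y) * semi t1 ^ p ≤ mass p semi t - mass p semi y := by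
    rw [mass, mass, intervalIntegral.integral_interval_sub_left (hi 0 t) (hi 0 y),
      ← intervalIntegral.integral_add_adjacent_intervals (hi y t1) (hi t1 t)]
    refine le_add_of_le_of_nonneg ?_ (intervalIntegral.integral_nonneg ht1t fun v _ =>
      pow_nonneg (Real.sqrt_nonneg _) _)
    refine le_trans (le_of_eq (by rw [intervalIntegral.integral_const, smul_eq_mul]))
      (intervalIntegral.integral_mono_on hyt1 intervalIntegrable_const (hi y t1) fun v hv => ?_)
    refine pow_le_pow_left₀ (Real.sqrt_nonneg _) (Real.sqrt_le_sqrt ?_) p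
    nlinarith [hv.1, hv.2]
  have hsy := semi_pos (t := y) ⟨by linarith, h.hy.2⟩
  have hS : 0 < 1 - y ^ 2 := by nlinarith [h.hy.2]
  have g1 : 0 < 1 - t1 ^ 2 := by nlinarith
  have hst : semi y ^ p / e ≤ semi t1 ^ p := by
    have e0 : semi t1 ^ p = semi y ^ p * exp (-(epsP p * phi p y (k * T))) := by
      have q : epsP p * phi p y (k * T) = (p : ℝ) / 2 * -log ((1 - t1 ^ 2) / (1 - y ^ 2)) := by
        rw [phi, ← ht1]; simp only [epsP]; field_simp; ring
      rw [q, mul_neg, neg_neg, mul_comm ((p : ℝ) / 2), ← Real.rpow_def_of_pos (div_pos g1 hS),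
        semi, semi, Real.sqrt_eq_rpow, Real.sqrt_eq_rpow, ← Real.rpow_natCast (_ ^ (1 / (2 : ℝ))),
        ← Real.rpow_natCast (_ ^ (1 / (2 : ℝ))), ← Real.rpow_mul g1.le, ← Real.rpow_mul hS.le,
        Real.div_rpow g1.le hS.le, one_div_mul_eq_div]
      field_simp
    rw [e0, div_eq_mul_inv, Real.exp_neg]
    refine mul_le_mul_of_nonneg_left (inv_anti₀ (exp_pos _) ((exp_le_exp.2 ?_).trans he))
      (pow_nonneg hsy.le _)
    refine mul_le_mul_of_nonneg_left ?_ hε.le
    exact (c2.trans (mul_le_mul_of_nonneg_left hPh.2.2 hs0)).trans (mul_le_of_le_one_left hP hs1)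
  have hl := lam_pow_sub h hk.le hk2 hγ
  have hlp : 0 ≤ lam ^ p - 1 := sub_nonneg.2 (one_le_pow₀ h.hlam)
  have hm0 : 0 ≤ mass p semi y := intervalIntegral.integral_nonneg hy0.le fun v _ =>
    pow_nonneg (Real.sqrt_nonneg _) _
  have h2 : mass p semi t - mass p semi y ≤ k * γ * epsP p * (hb * (y * semi y ^ p)) := by
    have := mul_le_mul hl hH hm0 (hlp.trans hl)
    linarith
  have he0 : 0 < e := lt_of_lt_of_le (exp_pos _) he
  have h3 : (t1 - y) * (semi y ^ p / e) ≤ k * γ * epsP p * (hb * (y * semi y ^ p)) :=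
    ((mul_le_mul_of_nonneg_left hst (by linarith)).trans h1).trans h2
  have e3 : (t1 - y) * (semi y ^ p / e) = k * epsP p * y * semi y ^ p * (T / e) := by
    rw [ht1]; field_simp; ring
  have h4 : k * epsP p * y * semi y ^ p * (T / e) ≤ k * epsP p * y * semi y ^ p * (γ * hb) := by
    linarith
  have h5 := le_of_mul_le_mul_left h4 (by positivity)
  rw [div_le_iff₀ he0] at h5
  linarith

end Vale.Agent.P237.All.Transport.Small
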