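import Vale.Agent.P237.All.Small.Excess

/-!
P237, every dimension, small excess: the tests of one piece in the scaled variables
`σ = m s / k`, `ψ = m θ / (k y)` (or, far from `y`, their multiples by `k`), all affine in `k`.
-/

noncomputable section

open Real Set

namespace Vale.Agent.P237.All.Transport.Small

/-- The scaled form. -/
def quadF (R L C K Q k σ ψ : ℝ) : ℝ := R * σ + L * ψ + k * (C * σ * ψ - K * σ ^ 2 + Q * ψ ^ 2)

/-- A quadratic is nonpositive on an interval if its three controls are. -/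
theorem quad_nonpos_ctrl {a0 a1 a2 A E x : ℝ} (hx : x ∈ Icc A E)
    (h0 : a0 + a1 * A + a2 * A ^ 2 ≤ 0) (h1 : a0 + a1 * E + a2 * E ^ 2 ≤ 0)
    (hm : a0 + a1 * A + a2 * A ^ 2 + (E - A) / 2 * (a1 + 2 * a2 * A) ≤ 0) :
    a0 + a1 * x + a2 * x ^ 2 ≤ 0 := by
  rcases (le_trans hx.1 hx.2).eq_or_lt with h | h
  · have : x = A := le_antisymm (h ▸ hx.2) hx.1
    subst this; exact h0
  obtain ⟨s, hs0, hs1, rfl⟩ : ∃ s : ℝ, 0 ≤ s ∧ s ≤ 1 ∧ x = A + s * (E - A) := by
    refine ⟨(x - A) / (E - A), div_nonneg (by linarith [hx.1]) (by linarith), ?_, ?_⟩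
    · rw [div_le_one (by linarith)]; linarith [hx.2]
    · rw [div_mul_cancel₀ _ (by linarith)]; ring
  have e : a0 + a1 * (A + s * (E - A)) + a2 * (A + s * (E - A)) ^ 2 =
      (1 - s) ^ 2 * (a0 + a1 * A + a2 * A ^ 2) +
        2 * (s * (1 - s)) * (a0 + a1 * A + a2 * A ^ 2 + (E - A) / 2 * (a1 + 2 * a2 * A)) +
        s ^ 2 * (a0 + a1 * E + a2 * E ^ 2) := by ring
  rw [e]
  have hss : 0 ≤ s * (1 - s) := mul_nonneg hs0 (by linarith)
  have := mul_nonpos_of_nonneg_of_nonpos (sq_nonneg (1 - s)) h0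
  have := mul_nonpos_of_nonneg_of_nonpos (mul_nonneg zero_le_two hss) hm
  have := mul_nonpos_of_nonneg_of_nonpos (sq_nonneg s) h1
  linarith

/-- A concave quadratic is nonpositive everywhere if its discriminant is. -/
theorem quad_nonpos_disc {a0 a1 a2 : ℝ} (h2 : a2 < 0) (hd : a1 ^ 2 ≤ 4 * a2 * a0) (x : ℝ) :
    a0 + a1 * x + a2 * x ^ 2 ≤ 0 := by
  nlinarith [sq_nonneg (2 * a2 * x + a1)]

/-- What is affine in `k` and nonpositive at both ends is nonpositive between. -/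
theorem affine_nonpos {a b ka kb k : ℝ} (hk : k ∈ Icc ka kb) (h0 : a + b * ka ≤ 0)
    (h1 : a + b * kb ≤ 0) : a + b * k ≤ 0 := by
  rcases le_total 0 b with h | h
  · have := mul_le_mul_of_nonneg_left hk.2 h; linarith
  · have := mul_le_mul_of_nonpos_left hk.1 h; linarith

theorem quadF_affine (R L C K Q k σ ψ : ℝ) :
    quadF R L C K Q k σ ψ = (R * σ + L * ψ) + (C * σ * ψ - K * σ ^ 2 + Q * ψ ^ 2) * k := by
  rw [quadF]; ring

/-- With a positive curvature: a multiplier on the upper bound of `σ` and the square completed. -/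
theorem quadF_std {R L C K Q k σ ψ c0 sl M ν P : ℝ} (hK : 0 < K) (hk : 0 ≤ k) (hM : 0 ≤ M)
    (hRM : R - M = k * ν) (hσ : σ ≤ c0 + sl * ψ)
    (hq : (4 * K * (M * c0 - P) + k * ν ^ 2) + (4 * K * (L + M * sl) + 2 * k * ν * C) * ψ +
      k * (4 * K * Q + C ^ 2) * ψ ^ 2 ≤ 0) :
    quadF R L C K Q k σ ψ ≤ P := by
  have h1 := mul_le_mul_of_nonneg_left hσ hM
  have h2 : R * σ = M * σ + k * ν * σ := by rw [← hRM]; ring
  have h3 := mul_nonneg hk (sq_nonneg (2 * K * σ - (ν + C * ψ)))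
  have h4 := mul_le_mul_of_nonneg_left h1 (show 0 ≤ 4 * K by linarith)
  rw [quadF, h2]
  refine le_of_mul_le_mul_left ?_ (show 0 < 4 * K by linarith)
  linarith

/-- The same far from `y`, in the multiples by `k`: the bound on `σ` and the bound are affine in `k`. -/
theorem quadF_std_far {R L C K Q ka kb k v u c0 c1 sl M P : ℝ} (hK : 0 < K) (hM : 0 ≤ M)
    (hk : k ∈ Icc ka kb) (hv : v ≤ c0 + k * c1 + sl * u)
    (hqa : (4 * K * (M * (c0 + ka * c1) - ka * P) + (R - M) ^ 2) +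
      (4 * K * (L + M * sl) + 2 * (R - M) * C) * u + (4 * K * Q + C ^ 2) * u ^ 2 ≤ 0)
    (hqb : (4 * K * (M * (c0 + kb * c1) - kb * P) + (R - M) ^ 2) +
      (4 * K * (L + M * sl) + 2 * (R - M) * C) * u + (4 * K * Q + C ^ 2) * u ^ 2 ≤ 0) :
    quadF R L C K Q 1 v u ≤ k * P := by
  refine quadF_std (c0 := c0 + k * c1) (sl := sl) (ν := R - M) hK zero_le_one hM (by ring) hv ?_
  have h := affine_nonpos hk
    (a := 4 * K * (M * c0) + (R - M) ^ 2 + (4 * K * (L + M * sl) + 2 * (R - M) * C) * u +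
      (4 * K * Q + C ^ 2) * u ^ 2) (b := 4 * K * (M * c1 - P)) (by linarith) (by linarith)
  linarith

/-- Without a positive curvature the form is convex in `σ`: its values at two ends bound it. -/
theorem quadF_split {R L C K Q k σ ψ a b P : ℝ} (hK : k * K ≤ 0) (hσ : σ ∈ Icc a b)
    (ha : quadF R L C K Q k a ψ ≤ P) (hb : quadF R L C K Q k b ψ ≤ P) :
    quadF R L C K Q k σ ψ ≤ P := by
  rcases (le_trans hσ.1 hσ.2).eq_or_lt with h | h
  · have : σ = a := le_antisymm (h ▸ hσ.2) hσ.1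
    subst this; exact ha
  refine le_of_mul_le_mul_left ?_ (sub_pos.2 h)
  have e : (b - a) * quadF R L C K Q k σ ψ = (b - σ) * quadF R L C K Q k a ψ +
      (σ - a) * quadF R L C K Q k b ψ + k * K * ((b - σ) * (σ - a) * (b - a)) := by
    rw [quadF, quadF, quadF]; ring
  have h3 : 0 ≤ (b - σ) * (σ - a) * (b - a) :=
    mul_nonneg (mul_nonneg (by linarith [hσ.2]) (by linarith [hσ.1])) (sub_pos.2 h).le
  have h4 := mul_nonpos_of_nonpos_of_nonneg hK h3
  have h5 := mul_le_mul_of_nonneg_left ha (show 0 ≤ b - σ by linarith [hσ.2])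
  have h6 := mul_le_mul_of_nonneg_left hb (show 0 ≤ σ - a by linarith [hσ.1])
  rw [e]
  linarith

/-- The bracket of the majorant in the scaled variables. -/
theorem bracket_scaled {Re Le Cx κ q m k y σ ψ : ℝ} (hm : m ≠ 0) :
    Re * (k * σ / m) + Le * (k * y * ψ / m) + Cx * (k * y * ψ / m) * (k * σ / m) -
        κ * (k * σ / m) ^ 2 + q * (k * y * ψ / m) ^ 2 =
      k / m ^ 3 * quadF (Re * m ^ 2) (Le * y * m ^ 2) (Cx * y * m) (κ * m) (q * y ^ 2 * m) k σ ψ := by
  rw [quadF]; field_simp; ring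

/-- The bracket far from `y`, in the multiples by `k`. -/
theorem quadF_far (R L C K Q k σ ψ : ℝ) :
    k * quadF R L C K Q k σ ψ = quadF R L C K Q 1 (k * σ) (k * ψ) := by
  rw [quadF, quadF]; ring

end Vale.Agent.P237.All.Transport.Small
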