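import Vale.Agent.P237.All.Mid.Num

/-!
P237, every dimension, small excess: the arithmetic of the checker at the scale `2 ^ 24`: products by
constants, signs, and rational bounds on the exponential from both sides.
-/

noncomputable section

open Real Set

namespace Vale.Agent.P237.All.Transport.Small

open Mid (Sg AF U U_pos U_ne)

/-- The real number of a scaled constant. -/
def rv (x : Sg) : ℝ := x.v / U

/-- The real number of a scaled natural. -/
def rn (n : ℕ) : ℝ := n / U

/-- A natural constant at the scale. -/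
def cst (n : ℕ) : AF := AF.const (Sg.ofN n)

/-- One. -/
def one : AF := cst 16777216

/-- The product by a constant. -/
def cm (n : Sg) (f : AF) : AF :=
  cond (Nat.ble n.neg n.pos) (f.scale (Nat.sub n.pos n.neg) 16777216)
    (f.scale (Nat.sub n.neg n.pos) 16777216).neg'

/-- The product by a natural constant. -/
def cn (n : ℕ) (f : AF) : AF := f.scale n 16777216

/-- The form is nonnegative. -/
def nn (f : AF) : Bool := Sg.le (Sg.ofN 0) f.low

/-- The form is positive. -/
def ps (f : AF) : Bool := Sg.lt (Sg.ofN 0) f.low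

/-- The form is nonpositive. -/
def np (f : AF) : Bool := nn f.neg'

/-- An upper bound on `exp z` for `z < 3`, times `6 - 2 z`. -/
def padeNum (z : AF) : AF := ((cst 100663296).add (z.scale 4 1)).add (z.mul z)

/-- `6 - 2 z`. -/
def padeDen (z : AF) : AF := (cst 100663296).sub (z.scale 2 1)

/-- `exp z` from above, by the sixteenth power, if the guard holds. -/
def expUp (z : AF) (k : AF → Bool) : Bool :=
  (z.scale 1 16).force fun w =>
  (padeDen w).force fun d =>
  ps d && ((padeNum w).mul d.inv).force fun a => (a.mul a).force fun b => (b.mul b).force fun c =>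
    (c.mul c).force fun e => (e.mul e).force k

variable {S T : ℝ}

theorem rn_nonneg (n : ℕ) : 0 ≤ rn n := div_nonneg (Nat.cast_nonneg n) U_pos.le

theorem rn_le {m n : ℕ} (h : m ≤ n) : rn m ≤ rn n :=
  div_le_div_of_nonneg_right (Nat.cast_le.2 h) U_pos.le

theorem rv_ofN (n : ℕ) : rv (Sg.ofN n) = rn n := by rw [rv, Sg.ofN_v, rn]

theorem has_c (x : Sg) : (AF.const x).Has S T (rv x) :=
  AF.has_const (by rw [rv, div_mul_cancel₀ _ U_ne])

theorem has_cst (n : ℕ) : (cst n).Has S T (rn n) := by
  rw [← rv_ofN]; exact has_c _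

theorem has_one : one.Has S T 1 := by
  have h := has_cst (S := S) (T := T) 16777216
  rwa [show rn 16777216 = 1 by norm_num [rn, U]] at h

theorem has_scale {f : AF} {u : ℝ} (hf : f.Has S T u) (hS : |S| ≤ 1) (hT : |T| ≤ 1) (n : ℕ) :
    (f.scale n 1).Has S T (n * u) := by
  have := hf.scale hS hT n (d := 1) Nat.one_pos
  rwa [Nat.cast_one, div_one, mul_comm] at this

theorem has_cn {f : AF} {u : ℝ} (hf : f.Has S T u) (hS : |S| ≤ 1) (hT : |T| ≤ 1) (n : ℕ) :
    (cn n f).Has S T (rn n * u) := by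
  have := hf.scale hS hT n (d := 16777216) (by norm_num)
  rw [mul_comm] at this
  simpa [cn, rn, U] using this

theorem has_cm {f : AF} {u : ℝ} (hf : f.Has S T u) (hS : |S| ≤ 1) (hT : |T| ≤ 1) (n : Sg) :
    (cm n f).Has S T (rv n * u) := by
  have key : ∀ j : ℕ, (f.scale j 16777216).Has S T ((j : ℝ) / U * u) := fun j => by
    have := hf.scale hS hT j (d := 16777216) (by norm_num)
    rw [mul_comm] at this
    simpa [U] using this
  simp only [cm, show ∀ a b, Nat.sub a b = a - b from fun _ _ => rfl]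
  rcases le_or_gt n.neg n.pos with h | h
  · rw [show Nat.ble n.neg n.pos = true by simpa [Nat.ble_eq] using h, cond_true]
    convert key (n.pos - n.neg) using 2
    rw [rv, Nat.cast_sub h, Sg.v]
  · rw [show Nat.ble n.neg n.pos = false from Bool.eq_false_iff.2 fun hc => by
      rw [Nat.ble_eq] at hc; omega, cond_false]
    convert (key (n.neg - n.pos)).neg using 1
    rw [rv, Nat.cast_sub h.le, Sg.v]
    ring

theorem nn_sound {f : AF} {u : ℝ} (h : nn f = true) (hf : f.Has S T u) (hS : |S| ≤ 1) (hT : |T| ≤ 1) :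
    0 ≤ u := by
  have h1 := (Sg.le_iff h).trans (hf.low_le hS hT)
  rw [Sg.ofN_v, Nat.cast_zero] at h1
  exact nonneg_of_mul_nonneg_left h1 U_pos

theorem ps_sound {f : AF} {u : ℝ} (h : ps f = true) (hf : f.Has S T u) (hS : |S| ≤ 1) (hT : |T| ≤ 1) :
    0 < u := by
  have h1 := (Sg.lt_iff h).trans_le (hf.low_le hS hT)
  rw [Sg.ofN_v, Nat.cast_zero] at h1
  exact pos_of_mul_pos_left h1 U_pos.le

theorem ps_posPart {f : AF} (h : ps f = true) : 0 < f.low.posPart := by
  simp only [ps, Sg.lt_def, Nat.blt_eq, Sg.ofN] at h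
  simp only [Sg.posPart_def]; omega

theorem has_inv {f : AF} {u : ℝ} (h : ps f = true) (hf : f.Has S T u) (hS : |S| ≤ 1) (hT : |T| ≤ 1) :
    f.inv.Has S T u⁻¹ := hf.inv hS hT (ps_posPart h)

theorem np_sound {f : AF} {u : ℝ} (h : np f = true) (hf : f.Has S T u) (hS : |S| ≤ 1) (hT : |T| ≤ 1) :
    u ≤ 0 := by
  have := nn_sound h hf.neg hS hT
  linarith

/-- A parameter in its interval. -/
theorem param_mem {c h : ℕ} {x : ℝ} (hx : x ∈ Icc (((c : ℝ) - h) / U) (((c : ℝ) + h) / U)) :
    ∃ s : ℝ, |s| ≤ 1 ∧ x * U = c + h * s := by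
  obtain ⟨h0, h1⟩ := hx
  rw [div_le_iff₀ U_pos] at h0
  rw [le_div_iff₀ U_pos] at h1
  rcases Nat.eq_zero_or_pos h with rfl | hh
  · refine ⟨0, by simp, ?_⟩
    rw [Nat.cast_zero] at h0 h1 ⊢
    linarith
  · have hh' : (0 : ℝ) < h := Nat.cast_pos.2 hh
    refine ⟨(x * U - c) / h, ?_, by field_simp; ring⟩
    rw [abs_div, abs_of_pos hh', div_le_one hh', abs_le]
    constructor <;> linarith

/-- The Padé bound on the exponential. -/
theorem exp_le_pade {z : ℝ} (hz : z < 3) : exp z * (6 - 2 * z) ≤ 6 + 4 * z + z ^ 2 := by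
  set f : ℝ → ℝ := fun z => (6 + 4 * z + z ^ 2) / ((6 - 2 * z) * exp z) with hf
  have hd : ∀ x ∈ Iio (3 : ℝ), HasDerivAt f (2 * x ^ 3 / ((6 - 2 * x) ^ 2 * exp x)) x := by
    intro x hx
    have h6 : 6 - 2 * x ≠ 0 := by have : x < 3 := hx; linarith
    have hn := (((hasDerivAt_id x).const_mul (4 : ℝ)).const_add 6).add ((hasDerivAt_id x).pow 2)
    have hq := (((hasDerivAt_id x).const_mul (2 : ℝ)).const_sub 6).mul (Real.hasDerivAt_exp x)
    refine (hn.div hq (mul_ne_zero h6 (exp_pos x).ne')).congr_deriv ?_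
    simp only [id_eq, Pi.add_apply, Pi.mul_apply, Pi.pow_apply, Nat.cast_ofNat,
      show 2 - 1 = 1 from rfl, pow_one]
    field_simp
    ring
  have h1 : 1 ≤ f z := by
    have f0 : f 0 = 1 := by simp [hf]
    rcases le_total 0 z with h | h
    · have hm : MonotoneOn f (Icc 0 z) := monotoneOn_of_hasDerivWithinAt_nonneg (convex_Icc _ _)
        (fun x hx => (hd x (show x < 3 by linarith [hx.2])).continuousAt.continuousWithinAt)
        (fun x hx => (hd x (show x < 3 by linarith [(interior_subset hx).2])).hasDerivWithinAt)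
        fun x hx => by have : 0 ≤ x := (interior_subset hx).1; positivity
      exact f0.ge.trans (hm (left_mem_Icc.2 h) (right_mem_Icc.2 h) h)
    · have hm : AntitoneOn f (Icc z 0) := antitoneOn_of_hasDerivWithinAt_nonpos (convex_Icc _ _)
        (fun x hx => (hd x (show x < 3 by linarith [hx.2])).continuousAt.continuousWithinAt)
        (fun x hx => (hd x (show x < 3 by linarith [(interior_subset hx).2])).hasDerivWithinAt)
        fun x hx => div_nonpos_of_nonpos_of_nonneg
          (mul_nonpos_of_nonneg_of_nonpos zero_le_two ((show Odd 3 by decide).pow_nonpos (interior_subset hx).2))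
          (by positivity)
      exact f0.ge.trans (hm (left_mem_Icc.2 h) (right_mem_Icc.2 h) h)
  rw [hf, one_le_div (mul_pos (by linarith) (exp_pos z))] at h1
  linarith

theorem has_padeNum {z : AF} {u : ℝ} (hz : z.Has S T u) (hS : |S| ≤ 1) (hT : |T| ≤ 1) :
    (padeNum z).Has S T (6 + 4 * u + u ^ 2) := by
  have h := ((has_cst 100663296).add (has_scale hz hS hT 4)).add (hz.mul hz hS hT)
  rw [show rn 100663296 = 6 by norm_num [rn, U]] at h
  simpa [sq, padeNum] using h

theorem has_padeDen {z : AF} {u : ℝ} (hz : z.Has S T u) (hS : |S| ≤ 1) (hT : |T| ≤ 1) :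
    (padeDen z).Has S T (6 - 2 * u) := by
  have h := (has_cst 100663296).sub (has_scale hz hS hT 2)
  rw [show rn 100663296 = 6 by norm_num [rn, U]] at h
  simpa [padeDen] using h

theorem expUp_sound {z : AF} {u : ℝ} {k : AF → Bool} (h : expUp z k = true) (hz : z.Has S T u)
    (hS : |S| ≤ 1) (hT : |T| ≤ 1) :
    ∃ (f : AF) (v : ℝ), k f = true ∧ f.Has S T v ∧ exp u ≤ v := by
  simp only [expUp, AF.force_eq, Bool.and_eq_true] at h
  obtain ⟨hd, h⟩ := h
  have hw : (z.scale 1 16).Has S T (u / 16) := by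
    have := hz.scale hS hT 1 (d := 16) (by norm_num)
    simpa [div_eq_mul_inv] using this
  have hden := has_padeDen hw hS hT
  have hpos := ps_sound hd hden hS hT
  have ha := (has_padeNum hw hS hT).mul (has_inv hd hden hS hT) hS hT
  have hb := ha.mul ha hS hT
  have hc := hb.mul hb hS hT
  have he := hc.mul hc hS hT
  refine ⟨_, _, h, he.mul he hS hT, ?_⟩
  set a := (6 + 4 * (u / 16) + (u / 16) ^ 2) * (6 - 2 * (u / 16))⁻¹ with hadef
  have h1 : exp (u / 16) ≤ a := by
    rw [hadef, ← div_eq_mul_inv, le_div_iff₀ hpos]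
    exact exp_le_pade (by linarith)
  calc exp u = exp (u / 16) ^ 16 := by rw [← Real.exp_nat_mul]; congr 1; ring
    _ ≤ a ^ 16 := pow_le_pow_left₀ (exp_pos _).le h1 16
    _ = _ := by ring

end Vale.Agent.P237.All.Transport.Small
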